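import Vale.Agent.P174.H834.NF

set_option linter.all false

/-!
# Reduction of the long word: the long rotation times a matching is a product of labelled
transpositions times a diagonal element
-/

namespace Vale.Agent.P174.H834

open Equiv Mn

variable {D H : Type*} [DecidableEq D] [Group H]

theorem rot_rotated (c : D → H) {L L' : List D} (h : L ~r L') (hn : L.Nodup) :
    rot c L = rot c L' := by
  refine ext' (fun d => ?_) (fun d => ?_)
  · rw [rot_σ, rot_σ, List.formPerm_eq_of_isRotated hn h]
  · rw [rot_c, rot_c]
    simp only [h.mem_iff]

/-- Permutation with central labels. -/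
def Im (ι : Perm D) (θ : D → H) : Mn D H := ⟨ι, θ⟩

theorem Im_σ (ι : Perm D) (θ : D → H) (d : D) : (Im ι θ).σ d = ι d := rfl

theorem Im_c (ι : Perm D) (θ : D → H) (d : D) : (Im ι θ).c d = θ d := rfl

/-- Elimination of a dart without letter. -/
theorem del1 (c : D → H) {B : List D} {a d : D} (hn : (B ++ [a] ++ [d]).Nodup) {e : H}
    (he : ∀ x, e * x = x * e) :
    sw a d (c a * e) * rot c (B ++ [a] ++ [d]) =
      rot (Function.update c a (c a * e * c d)) (B ++ [a]) *
        dg (fun x => if x = d then e⁻¹ else 1) := by
  have hd : d ∉ B ++ [a] := fun h => (List.nodup_append.1 hn).2.2 d h d (by simp) rfl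
  have had : a ≠ d := fun h => hd (by simp [h])
  have hF : (B ++ [a] ++ [d]).formPerm = (B ++ [a]).formPerm * swap a d := by
    rw [formPerm_append (by simp) (by simp) hn]
    simp
  refine ext' (fun x => ?_) (fun x => ?_)
  · simp only [mul_σ, sw_σ, rot_σ, dg_σ, hF, Perm.mul_apply, swap_apply_self]
  · simp only [mul_c, sw_c, sw_σ, rot_c, rot_σ, dg_c]
    by_cases h1 : x = a
    · subst h1
      rw [swap_apply_left, if_pos rfl, if_pos (by simp), if_pos (by simp),
        Function.update_self]
      have h2 : (B ++ [x]).formPerm x ∈ B ++ [x] := List.formPerm_apply_mem_of_mem (by simp)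
      rw [if_neg (show ¬ ((B ++ [x]).formPerm x = d) from fun h => hd (h ▸ h2)), mul_one]
    · by_cases h2 : x = d
      · subst h2
        rw [swap_apply_right, if_neg h1, if_pos rfl, if_pos (by simp), if_neg hd,
          List.formPerm_apply_of_notMem hd, if_pos rfl, one_mul, mul_inv_rev]
        group
      · rw [swap_apply_of_ne_of_ne h1 h2, if_neg h1, if_neg h2, one_mul]
        by_cases h3 : x ∈ B ++ [a]
        · have h4 : (B ++ [a]).formPerm x ∈ B ++ [a] := List.formPerm_apply_mem_of_mem h3
          rw [if_pos (List.mem_append_left _ h3), if_pos h3, Function.update_of_ne h1,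
            if_neg (show ¬ ((B ++ [a]).formPerm x = d) from fun h => hd (h ▸ h4)), mul_one]
        · rw [if_neg (by simp only [List.mem_append, List.mem_singleton] at h3 ⊢; tauto), if_neg h3,
            List.formPerm_apply_of_notMem h3, if_neg h2, mul_one]

/-- Elimination of a pair of cancelling letters. -/
theorem del2 (c : D → H) {B : List D} {a u v : D} (hn : (B ++ [a] ++ [u] ++ [v]).Nodup) {e : H}
    (he : ∀ x, e * x = x * e) (hu : ∀ x, c u * x = x * c u) (ι : Perm D) (θ : D → H)
    (hιu : ι u = u) (hιv : ι v = v) (hθu : θ u = 1) (hθv : θ v = 1) :
    sw a v (c a * c u * e * e) * (rot c (B ++ [a] ++ [u] ++ [v]) *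
      Im (ι * swap u v) (fun x => if x = u then c u * e else if x = v then (c u * e)⁻¹ else θ x)) =
    rot (Function.update c a (c a * c u * e * e * c v)) (B ++ [a]) *
      (Im ι θ * dg (fun x => if x = u ∨ x = v then e⁻¹ else 1)) := by
  have hv : v ∉ B ++ [a] ++ [u] := fun h => (List.nodup_append.1 hn).2.2 v h v (by simp) rfl
  have hn' : (B ++ [a] ++ [u]).Nodup := (List.nodup_append.1 hn).1
  have hu' : u ∉ B ++ [a] := fun h => (List.nodup_append.1 hn').2.2 u h u (by simp) rfl
  have hv' : v ∉ B ++ [a] := fun h => hv (List.mem_append_left _ h)
  have hau : a ≠ u := fun h => hu' (by simp [h])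
  have hav : a ≠ v := fun h => hv' (by simp [h])
  have huv : u ≠ v := fun h => hv (by simp [h])
  set F := (B ++ [a]).formPerm with hFdef
  have hF : (B ++ [a] ++ [u] ++ [v]).formPerm = F * swap a u * swap u v := by
    rw [formPerm_append (by simp) (by simp) hn, formPerm_append (by simp) (by simp) hn']
    simp [hFdef]
  have hFu : F u = u := List.formPerm_apply_of_notMem hu'
  have hFv : F v = v := List.formPerm_apply_of_notMem hv'
  have hFne : ∀ x, x ≠ u → x ≠ v → F x ≠ u ∧ F x ≠ v := fun x h1 h2 =>
    ⟨fun h => h1 (F.injective (h.trans hFu.symm)), fun h => h2 (F.injective (h.trans hFv.symm))⟩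
  have hιne : ∀ x, x ≠ u → x ≠ v → ι x ≠ u ∧ ι x ≠ v := fun x h1 h2 =>
    ⟨fun h => h1 (ι.injective (h.trans hιu.symm)), fun h => h2 (ι.injective (h.trans hιv.symm))⟩
  -- the images under the transposition followed by the rotation
  have ga : F (swap a u (swap u v (swap a v a))) = F a := by
    rw [swap_apply_left, swap_apply_right, swap_apply_right]
  have gu : F (swap a u (swap u v (swap a v u))) = v := by
    rw [swap_apply_of_ne_of_ne (Ne.symm hau) huv, swap_apply_left,
      swap_apply_of_ne_of_ne (Ne.symm hav) (Ne.symm huv), hFv]
  have gv : F (swap a u (swap u v (swap a v v))) = u := by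
    rw [swap_apply_right, swap_apply_of_ne_of_ne hau hav, swap_apply_left, hFu]
  have gx : ∀ x, x ≠ a → x ≠ u → x ≠ v → F (swap a u (swap u v (swap a v x))) = F x := by
    intro x h1 h2 h3
    rw [swap_apply_of_ne_of_ne h1 h3, swap_apply_of_ne_of_ne h2 h3, swap_apply_of_ne_of_ne h1 h2]
  refine ext' (fun x => ?_) (fun x => ?_)
  · simp only [mul_σ, sw_σ, rot_σ, dg_σ, Im_σ, hF, Perm.mul_apply]
    by_cases h1 : x = a
    · subst h1
      have := hFne x hau hav
      rw [ga, swap_apply_of_ne_of_ne this.1 this.2]
    · by_cases h2 : x = u
      · subst h2
        rw [gu, swap_apply_right, hιu, ← hFdef, hFu, hιu]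
      · by_cases h3 : x = v
        · subst h3
          rw [gv, swap_apply_left, hιv, ← hFdef, hFv, hιv]
        · have := hFne x h2 h3
          rw [gx x h1 h2 h3, swap_apply_of_ne_of_ne this.1 this.2]
  · simp only [mul_c, mul_σ, sw_c, sw_σ, rot_c, rot_σ, dg_c, Im_c, Im_σ, hF, Perm.mul_apply]
    by_cases h1 : x = a
    · subst h1
      have h4 := hFne x hau hav
      have h5 := hιne _ h4.1 h4.2
      rw [ga, if_pos rfl, swap_apply_left, if_pos (by simp), if_neg h4.1, if_neg h4.2,
        if_pos (by simp), Function.update_self, ← hFdef, if_neg (by tauto), mul_one]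
      simp only [mul_assoc]
    · by_cases h2 : x = u
      · subst h2
        rw [gu, if_neg h1, if_neg huv, swap_apply_of_ne_of_ne (Ne.symm hau) huv,
          if_pos (by simp), if_neg (Ne.symm huv), if_pos rfl, if_neg hu', ← hFdef, hFu, hιu,
          hθu, if_pos (Or.inl rfl), one_mul, one_mul, one_mul, mul_inv_rev, ← mul_assoc, hu]
        group
      · by_cases h3 : x = v
        · subst h3
          rw [gv, if_neg h1, if_pos rfl, swap_apply_right, if_pos (by simp), if_pos rfl,
            if_neg hv', ← hFdef, hFv, hιv, hθv, if_pos (Or.inr rfl), one_mul, one_mul]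
          have : c a * c u * e * e = c a * (c u * e) * e := by group
          rw [this]
          group
        · have h4 := hFne x h2 h3
          have h5 := hιne _ h4.1 h4.2
          rw [gx x h1 h2 h3, if_neg h1, if_neg h3, swap_apply_of_ne_of_ne h1 h3, if_neg h4.1,
            if_neg h4.2, ← hFdef, one_mul, if_neg (show ¬ (ι (F x) = u ∨ ι (F x) = v) by tauto),
            mul_one, Function.update_of_ne h1]
          by_cases h6 : x ∈ B ++ [a]
          · rw [if_pos h6, if_pos (List.mem_append_left _ (List.mem_append_left _ h6))]
          · rw [if_neg h6, if_neg]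
            simp only [List.mem_append, List.mem_singleton] at h6 ⊢
            tauto

/-! ## The reduction of a word with value in the coefficient group -/

/-- Coefficients with an integer phase. -/
abbrev HH (G : Type*) := G × Multiplicative ℤ

/-- The elementary phase. -/
def ee (G : Type*) [Group G] : HH G := (1, Multiplicative.ofAdd 1)

theorem central {G : Type*} [Group G] {z : HH G} (h : z.1 = 1) (x : HH G) : z * x = x * z := by
  ext
  · simp [h]
  · rw [Prod.snd_mul, Prod.snd_mul, mul_comm]

variable {n : ℕ} {G : Type*} [Group G]

/-- Value of an optional letter. -/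
def lo (G : Type*) [Group G] (y : Option (Let n)) : Monoid.Coprod G (FreeGroup (Fin n)) :=
  match y with
  | none => 1
  | some y => lv G y

/-- Value of a list of darts. -/
def ev (lam : D → Option (Let n)) (c : D → HH G) (L : List D) :
    Monoid.Coprod G (FreeGroup (Fin n)) :=
  (L.map fun d => lo G (lam d) * Monoid.Coprod.inl (c d).1).prod

theorem ev_append (lam : D → Option (Let n)) (c : D → HH G) (L L' : List D) :
    ev lam c (L ++ L') = ev lam c L * ev lam c L' := by
  simp [ev]

theorem ev_cons (lam : D → Option (Let n)) (c : D → HH G) (d : D) (L : List D) :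
    ev lam c (d :: L) = lo G (lam d) * Monoid.Coprod.inl (c d).1 * ev lam c L := by
  simp [ev]

theorem ev_congr (lam : D → Option (Let n)) {c c' : D → HH G} {L : List D}
    (h : ∀ d ∈ L, c d = c' d) : ev lam c L = ev lam c' L := by
  unfold ev
  congr 1
  apply List.map_congr_left
  intro d hd
  rw [h d hd]

/-- Matching of the letters of `L`, with antisymmetric integer phases. -/
structure Matching (lam : D → Option (Let n)) (L : List D) (ι : Perm D)
    (θ : D → Multiplicative ℤ) : Prop where
  inv : ∀ d, ι (ι d) = d
  out : ∀ d, d ∉ L → ι d = d
  fixed : ∀ d, lam d = none → ι d = d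
  letter : ∀ d ∈ L, ∀ y, lam d = some y → lam (ι d) = some (nv y)
  anti : ∀ d, θ (ι d) = (θ d)⁻¹
  θout : ∀ d, ι d = d → θ d = 1

/-- The phases as labels. -/
def lab (G : Type*) [Group G] (θ : D → Multiplicative ℤ) (d : D) : HH G := (1, θ d)

/-- The final diagonal element. -/
def Dl (m : D) (L : List D) (g : G) (k : Multiplicative ℤ) : Mn D (HH G) :=
  dg fun d => if d = m then (g, k) else if d ∈ L then (ee G)⁻¹ else 1

theorem Matching.mem {lam : D → Option (Let n)} {L : List D} {ι : Perm D}
    {θ : D → Multiplicative ℤ} (h : Matching lam L ι θ) {d : D} (hd : d ∈ L) : ι d ∈ L := by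
  by_contra hc
  have := h.out _ hc
  rw [h.inv] at this
  rw [← this] at hc
  exact hc hd

theorem dg_mul_dg (c c' : D → H) : dg c * dg c' = dg fun d => c d * c' d := rfl

theorem Im_mul_dg (ι : Perm D) (θ c : D → H) (h : ∀ d, c (ι d) = c d)
    (hθ : ∀ d x, θ d * x = x * θ d) : Im ι θ * dg c = dg c * Im ι θ := by
  refine ext' (fun d => rfl) (fun d => ?_)
  simp only [mul_c, Im_c, Im_σ, dg_c, dg_σ, h, hθ]

/-- **Reduction.** -/
theorem reduce (lam : D → Option (Let n)) (m : D) (hm : lam m = none) (g : G) :
    ∀ (N : ℕ) (L : List D), L.length = N → (m :: L).Nodup → ∀ c : D → HH G,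
      ev lam c (m :: L) = Monoid.Coprod.inl g →
      ∃ (ι : Perm D) (θ : D → Multiplicative ℤ) (k : Multiplicative ℤ) (Rs : List (Mn D (HH G))),
        Matching lam L ι θ ∧ (∀ R ∈ Rs, IsSw R) ∧
        2 * Rs.length = L.length + (L.filter fun d => (lam d).isNone).length ∧
        Rs.prod * (rot c (m :: L) * Im ι (lab G θ)) = Dl m L g k := by
  intro N
  induction N using Nat.strong_induction_on with
  | _ N ih =>
    intro L hLN hn c hev
    by_cases hL : L = []
    · subst hL
      have h1 : (c m).1 = g := by
        rw [ev_cons, hm] at hev
        simp only [lo, ev, List.map_nil, List.prod_nil, one_mul, mul_one] at hev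
        exact Monoid.Coprod.inl_injective hev
      refine ⟨1, fun _ => 1, (c m).2, [], ⟨fun d => rfl, fun d _ => rfl, fun d _ => rfl,
        by simp, fun d => by simp, fun d _ => rfl⟩, by simp, by simp, ?_⟩
      refine ext' (fun d => ?_) (fun d => ?_)
      · simp [Dl, mul_σ, rot_σ, Im_σ, dg_σ, one_σ]
      · simp only [List.prod_nil, one_mul, Dl, mul_c, rot_c, Im_c, dg_c, List.mem_singleton,
          List.not_mem_nil, if_false, lab]
        split_ifs with h2
        · subst h2
          rw [← h1]
          ext <;> simp
        · ext <;> simp
    · by_cases hex : ∃ d ∈ L, lam d = none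
      · -- a dart without letter
        obtain ⟨d, hdL, hd⟩ := hex
        obtain ⟨X, Y, rfl⟩ := List.append_of_mem hdL
        obtain ⟨Z, a, hZ⟩ : ∃ Z a, m :: X = Z ++ [a] :=
          ⟨(m :: X).dropLast, (m :: X).getLast (by simp),
            (List.dropLast_append_getLast (by simp)).symm⟩
        have e1 : m :: (X ++ d :: Y) = Z ++ [a] ++ [d] ++ Y := by
          rw [← hZ]; simp
        have e2 : m :: (X ++ Y) = Z ++ [a] ++ Y := by rw [← hZ]; simp
        have hr1 : m :: (X ++ d :: Y) ~r Y ++ Z ++ [a] ++ [d] := by
          rw [e1, show Y ++ Z ++ [a] ++ [d] = Y ++ (Z ++ [a] ++ [d]) by simp]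
          exact List.isRotated_append
        have hr2 : m :: (X ++ Y) ~r Y ++ Z ++ [a] := by
          rw [e2, show Y ++ Z ++ [a] = Y ++ (Z ++ [a]) by simp]
          exact List.isRotated_append
        have hn1 : (Y ++ Z ++ [a] ++ [d]).Nodup := hr1.nodup_iff.1 hn
        have hn2 : (m :: (X ++ Y)).Nodup := by
          rw [hr2.nodup_iff]
          exact (List.nodup_append.1 hn1).1
        have hdm : d ≠ m := by
          intro h
          have := (List.nodup_cons.1 hn).1
          exact this (by simp [h])
        have hdn : d ∉ m :: (X ++ Y) := by
          rw [hr2.mem_iff]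
          intro h
          exact (List.nodup_append.1 hn1).2.2 d h d (by simp) rfl
        set c' : D → HH G := Function.update c a (c a * ee G * c d) with hc'
        have had : a ≠ d := by
          intro h
          exact (List.nodup_append.1 hn1).2.2 a (by simp) d (by simp) h
        have hev' : ev lam c' (m :: (X ++ Y)) = Monoid.Coprod.inl g := by
          rw [← hev, e1, e2, ev_append, ev_append, ev_append, ev_append, ev_append]
          have hna : a ∉ Z := by
            rw [e2] at hn2
            intro h
            exact (List.nodup_append.1 (List.nodup_append.1 hn2).1).2.2 a h a (by simp) rfl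
          have hnaY : a ∉ Y := by
            rw [e2] at hn2
            intro h
            exact (List.nodup_append.1 hn2).2.2 a (by simp) a h rfl
          rw [ev_congr lam (c := c') (c' := c) (L := Z) (fun x hx => by
              rw [hc', Function.update_of_ne]; rintro rfl; exact hna hx),
            ev_congr lam (c := c') (c' := c) (L := Y) (fun x hx => by
              rw [hc', Function.update_of_ne]; rintro rfl; exact hnaY hx)]
          have h3 : ev lam c' [a] = ev lam c [a] * ev lam c [d] := by
            rw [ev_cons, ev_cons, ev_cons, hd, hc', Function.update_self]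
            simp [ev, lo, ee, mul_assoc]
          rw [h3]
          simp only [mul_assoc]
        have hlen : (X ++ Y).length < N := by
          rw [← hLN]; simp
        obtain ⟨ι, θ, k, Rs, hM, hRs, hcount, hprod⟩ :=
          ih _ hlen (X ++ Y) rfl hn2 c' hev'
        have hdXY : d ∉ X ++ Y := fun h => hdn (List.mem_cons_of_mem _ h)
        have hιd : ι d = d := hM.out d hdXY
        refine ⟨ι, θ, k, Rs ++ [sw a d (c a * ee G)], ⟨hM.inv, fun x hx => hM.out x ?_, hM.fixed,
          fun x hx y hy => ?_, hM.anti, hM.θout⟩, ?_, ?_, ?_⟩
        · simp only [List.mem_append, List.mem_cons] at hx ⊢; tauto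
        · have hx' : x ∈ X ++ Y := by
            simp only [List.mem_append, List.mem_cons] at hx ⊢
            rcases hx with h | h | h
            · exact Or.inl h
            · subst h; rw [hd] at hy; cases hy
            · exact Or.inr h
          exact hM.letter x hx' y hy
        · intro R hR
          rcases List.mem_append.1 hR with h | h
          · exact hRs R h
          · rw [List.mem_singleton] at h
            exact ⟨a, d, _, had, h⟩
        · rw [List.length_append, List.length_singleton, mul_add, hcount, List.filter_append,
            List.filter_append, List.filter_cons_of_pos (by simp [hd])]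
          simp only [List.length_append, List.length_cons]
          omega
        · have hcen : ∀ x : HH G, ee G * x = x * ee G := central rfl
          have h4 := del1 c hn1 hcen
          rw [← hc', ← rot_rotated c hr1 hn, ← rot_rotated c' hr2 hn2] at h4
          have h5 : (dg fun x => if x = d then (ee G)⁻¹ else 1) * Im ι (lab G θ) =
              Im ι (lab G θ) * dg fun x => if x = d then (ee G)⁻¹ else 1 := by
            rw [Im_mul_dg]
            · intro x
              have : (ι x = d) ↔ (x = d) :=
                ⟨fun h => by rw [← hM.inv x, h, hιd], fun h => by rw [h, hιd]⟩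
              simp only [this]
            · intro x; exact central rfl
          rw [List.prod_append, List.prod_singleton, mul_assoc,
            ← mul_assoc (sw a d (c a * ee G)), h4, mul_assoc, h5, ← mul_assoc (rot c' _),
            ← mul_assoc, hprod, Dl, Dl, dg_mul_dg]
          refine ext' (fun x => rfl) (fun x => ?_)
          simp only [dg_c]
          by_cases h6 : x = m
          · subst h6
            rw [if_pos rfl, if_pos rfl, if_neg (Ne.symm hdm), mul_one]
          · by_cases h7 : x = d
            · subst h7
              rw [if_neg h6, if_neg hdXY, if_pos rfl, one_mul, if_neg h6,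
                if_pos (by simp)]
            · rw [if_neg h6, if_neg h6, if_neg h7, mul_one]
              have : x ∈ X ++ d :: Y ↔ x ∈ X ++ Y := by
                simp only [List.mem_append, List.mem_cons]; tauto
              simp only [this]
      · -- all darts carry letters
        push Not at hex
        have hlet : ∀ d ∈ L, ∃ y, lam d = some y := by
          intro d hd
          exact Option.ne_none_iff_exists'.1 (hex d hd)
        set f : D → Let n × G := fun d => ((lam d).getD (⟨0, by
          rcases n with _ | n
          · exfalso
            obtain ⟨d, hd⟩ := List.exists_mem_of_ne_nil L hL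
            obtain ⟨y, _⟩ := hlet d hd
            exact y.1.elim0
          · exact Nat.succ_pos n⟩, true), (c d).1) with hf
        have hwv : ∀ L' : List D, (∀ d ∈ L', ∃ y, lam d = some y) →
            ev lam c L' = wv (L'.map f) := by
          intro L' hL'
          unfold ev wv
          rw [List.map_map]
          congr 1
          apply List.map_congr_left
          intro d hd
          obtain ⟨y, hy⟩ := hL' d hd
          simp only [hf, Function.comp_apply, hy, Option.getD_some, lo]
        have h1 : Monoid.Coprod.inl (c m).1 * wv (L.map f) = Monoid.Coprod.inl g := by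
          rw [← hev, ev_cons, hm, hwv L hlet]
          simp [lo]
        obtain ⟨X', Y', y, d0, hXY⟩ := exists_cancel (by simpa using hL) h1
        obtain ⟨X, L1, hX, hX', hL1⟩ := List.map_eq_append_iff.1 hXY
        obtain ⟨u, L2, rfl, hu, hL2⟩ := List.map_eq_cons_iff.1 hL1
        obtain ⟨v, Y, rfl, hv, hY⟩ := List.map_eq_cons_iff.1 hL2
        subst hX
        obtain ⟨yu, hyu⟩ := hlet u (by simp)
        obtain ⟨yv, hyv⟩ := hlet v (by simp)
        have hu1 : yu = y ∧ (c u).1 = 1 := by
          have := hu
          simp only [hf, hyu, Option.getD_some, Prod.mk.injEq] at this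
          exact this
        have hv1 : yv = nv y := by
          have := hv
          simp only [hf, hyv, Option.getD_some, Prod.mk.injEq] at this
          exact this.1
        obtain ⟨Z, a, hZ⟩ : ∃ Z a, m :: X = Z ++ [a] :=
          ⟨(m :: X).dropLast, (m :: X).getLast (by simp),
            (List.dropLast_append_getLast (by simp)).symm⟩
        have e1 : m :: (X ++ u :: v :: Y) = Z ++ [a] ++ [u] ++ [v] ++ Y := by
          rw [← hZ]; simp
        have e2 : m :: (X ++ Y) = Z ++ [a] ++ Y := by rw [← hZ]; simp
        have hr1 : m :: (X ++ u :: v :: Y) ~r Y ++ Z ++ [a] ++ [u] ++ [v] := by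
          rw [e1, show Y ++ Z ++ [a] ++ [u] ++ [v] = Y ++ (Z ++ [a] ++ [u] ++ [v]) by simp]
          exact List.isRotated_append
        have hr2 : m :: (X ++ Y) ~r Y ++ Z ++ [a] := by
          rw [e2, show Y ++ Z ++ [a] = Y ++ (Z ++ [a]) by simp]
          exact List.isRotated_append
        have hn1 : (Y ++ Z ++ [a] ++ [u] ++ [v]).Nodup := hr1.nodup_iff.1 hn
        have hn1' : (Y ++ Z ++ [a] ++ [u]).Nodup := (List.nodup_append.1 hn1).1
        have hn2 : (m :: (X ++ Y)).Nodup := by
          rw [hr2.nodup_iff]
          exact (List.nodup_append.1 hn1').1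
        have hvn : v ∉ Y ++ Z ++ [a] ++ [u] := fun h =>
          (List.nodup_append.1 hn1).2.2 v h v (by simp) rfl
        have hun : u ∉ Y ++ Z ++ [a] := fun h =>
          (List.nodup_append.1 hn1').2.2 u h u (by simp) rfl
        have huL : u ∉ m :: (X ++ Y) := by rw [hr2.mem_iff]; exact hun
        have hvL : v ∉ m :: (X ++ Y) := by
          rw [hr2.mem_iff]; exact fun h => hvn (List.mem_append_left _ h)
        have huv : u ≠ v := fun h => hvn (by simp [h])
        have hav : a ≠ v := fun h => hvn (by simp [h])
        have hum : u ≠ m := fun h => huL (by simp [h])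
        have hvm : v ≠ m := fun h => hvL (by simp [h])
        have huXY : u ∉ X ++ Y := fun h => huL (List.mem_cons_of_mem _ h)
        have hvXY : v ∉ X ++ Y := fun h => hvL (List.mem_cons_of_mem _ h)
        set c' : D → HH G := Function.update c a (c a * c u * ee G * ee G * c v) with hc'
        have hev' : ev lam c' (m :: (X ++ Y)) = Monoid.Coprod.inl g := by
          rw [← hev, e1, e2, ev_append, ev_append, ev_append, ev_append, ev_append, ev_append]
          have hna : a ∉ Z := by
            rw [e2] at hn2
            intro h
            exact (List.nodup_append.1 (List.nodup_append.1 hn2).1).2.2 a h a (by simp) rfl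
          have hnaY : a ∉ Y := by
            rw [e2] at hn2
            intro h
            exact (List.nodup_append.1 hn2).2.2 a (by simp) a h rfl
          rw [ev_congr lam (c := c') (c' := c) (L := Z) (fun x hx => by
              rw [hc', Function.update_of_ne]; rintro rfl; exact hna hx),
            ev_congr lam (c := c') (c' := c) (L := Y) (fun x hx => by
              rw [hc', Function.update_of_ne]; rintro rfl; exact hnaY hx)]
          have h3 : ev lam c' [a] = ev lam c [a] * (ev lam c [u] * ev lam c [v]) := by
            rw [ev_cons, ev_cons, ev_cons, ev_cons, hyu, hyv, hc', Function.update_self, hu1.1,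
              hv1]
            simp only [ev, lo, ee, List.map_nil, List.prod_nil, mul_one, Prod.fst_mul, hu1.2,
              lv_nv, _root_.map_mul, map_one]
            group
          rw [h3]
          simp only [mul_assoc]
        have hlen : (X ++ Y).length < N := by
          rw [← hLN]; simp only [List.length_append, List.length_cons]; omega
        obtain ⟨ι, θ, k, Rs, hM, hRs, hcount, hprod⟩ :=
          ih _ hlen (X ++ Y) rfl hn2 c' hev'
        have hιu : ι u = u := hM.out u huXY
        have hιv : ι v = v := hM.out v hvXY
        have hθu : θ u = 1 := hM.θout u hιu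
        have hθv : θ v = 1 := hM.θout v hιv
        set θ' : D → Multiplicative ℤ := fun x =>
          if x = u then (c u).2 * Multiplicative.ofAdd 1 else
            if x = v then ((c u).2 * Multiplicative.ofAdd 1)⁻¹ else θ x with hθ'
        have hιne : ∀ x, x ≠ u → x ≠ v → ι x ≠ u ∧ ι x ≠ v := fun x h1 h2 =>
          ⟨fun h => h1 (ι.injective (h.trans hιu.symm)),
            fun h => h2 (ι.injective (h.trans hιv.symm))⟩
        refine ⟨ι * swap u v, θ', k, Rs ++ [sw a v (c a * c u * ee G * ee G)],
          ⟨fun x => ?_, fun x hx => ?_, fun x hx => ?_, fun x hx z hz => ?_, fun x => ?_,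
            fun x hx => ?_⟩, ?_, ?_, ?_⟩
        · simp only [Perm.mul_apply]
          by_cases h1 : x = u
          · subst h1; rw [swap_apply_left, hιv, swap_apply_right, hιu]
          · by_cases h2 : x = v
            · subst h2; rw [swap_apply_right, hιu, swap_apply_left, hιv]
            · rw [swap_apply_of_ne_of_ne h1 h2,
                swap_apply_of_ne_of_ne (hιne x h1 h2).1 (hιne x h1 h2).2, hM.inv]
        · have h1 : x ≠ u := fun h => hx (by simp [h])
          have h2 : x ≠ v := fun h => hx (by simp [h])
          rw [Perm.mul_apply, swap_apply_of_ne_of_ne h1 h2]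
          apply hM.out
          simp only [List.mem_append, List.mem_cons] at hx ⊢; tauto
        · have h1 : x ≠ u := fun h => by rw [h, hyu] at hx; cases hx
          have h2 : x ≠ v := fun h => by rw [h, hyv] at hx; cases hx
          rw [Perm.mul_apply, swap_apply_of_ne_of_ne h1 h2]
          exact hM.fixed x hx
        · rw [Perm.mul_apply]
          by_cases h1 : x = u
          · subst h1
            rw [swap_apply_left, hιv, hyv, hv1, ← hu1.1]
            rw [hyu] at hz
            rw [Option.some_injective _ hz]
          · by_cases h2 : x = v
            · subst h2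
              rw [swap_apply_right, hιu, hyu, hu1.1]
              rw [hyv, hv1] at hz
              rw [← Option.some_injective _ hz, nv_nv]
            · rw [swap_apply_of_ne_of_ne h1 h2]
              refine hM.letter x ?_ z hz
              simp only [List.mem_append, List.mem_cons] at hx ⊢; tauto
        · rw [Perm.mul_apply]
          by_cases h1 : x = u
          · subst h1
            rw [swap_apply_left, hιv]
            simp only [hθ', if_neg (Ne.symm huv), if_pos]
          · by_cases h2 : x = v
            · subst h2
              rw [swap_apply_right, hιu]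
              simp only [hθ', if_neg (Ne.symm huv), if_pos, inv_inv]
            · rw [swap_apply_of_ne_of_ne h1 h2]
              simp only [hθ', if_neg (hιne x h1 h2).1, if_neg (hιne x h1 h2).2, if_neg h1,
                if_neg h2, hM.anti]
        · rw [Perm.mul_apply] at hx
          by_cases h1 : x = u
          · subst h1; rw [swap_apply_left, hιv] at hx; exact absurd hx.symm huv
          · by_cases h2 : x = v
            · subst h2; rw [swap_apply_right, hιu] at hx; exact absurd hx huv
            · rw [swap_apply_of_ne_of_ne h1 h2] at hx
              simp only [hθ', if_neg h1, if_neg h2]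
              exact hM.θout x hx
        · intro R hR
          rcases List.mem_append.1 hR with h | h
          · exact hRs R h
          · rw [List.mem_singleton] at h
            exact ⟨a, v, _, hav, h⟩
        · rw [List.length_append, List.length_singleton, mul_add, hcount, List.filter_append,
            List.filter_append, List.filter_cons_of_neg (by simp [hyu]),
            List.filter_cons_of_neg (by simp [hyv])]
          simp only [List.length_append, List.length_cons]
          omega
        · have hcen : ∀ x : HH G, ee G * x = x * ee G := central rfl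
          have hcu : ∀ x : HH G, c u * x = x * c u := central hu1.2
          have h4 := del2 c hn1 hcen hcu ι (lab G θ) hιu hιv (by simp [lab, hθu])
            (by simp [lab, hθv])
          have h5 : (fun x => if x = u then c u * ee G else
              if x = v then (c u * ee G)⁻¹ else lab G θ x) = lab G θ' := by
            funext x
            simp only [lab, hθ']
            have h6 : c u = (1, (c u).2) := Prod.ext hu1.2 rfl
            split_ifs with h7 h8
            · rw [h6]; simp [ee]
            · rw [h6]; simp [ee]
            · rfl
          rw [h5, ← hc', ← rot_rotated c hr1 hn, ← rot_rotated c' hr2 hn2] at h4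
          rw [List.prod_append, List.prod_singleton, mul_assoc, h4, ← mul_assoc (rot c' _),
            ← mul_assoc, hprod, Dl, Dl, dg_mul_dg]
          refine ext' (fun x => rfl) (fun x => ?_)
          simp only [dg_c]
          by_cases h6 : x = m
          · subst h6
            rw [if_pos rfl, if_pos rfl, if_neg (by tauto), mul_one]
          · by_cases h7 : x = u ∨ x = v
            · have h8 : x ∉ X ++ Y := by
                rcases h7 with h | h
                · rw [h]; exact huXY
                · rw [h]; exact hvXY
              rw [if_neg h6, if_neg h8, if_pos h7, one_mul, if_neg h6, if_pos (by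
                rcases h7 with h | h <;> simp [h])]
            · rw [if_neg h6, if_neg h6, if_neg h7, mul_one]
              have : x ∈ X ++ u :: v :: Y ↔ x ∈ X ++ Y := by
                simp only [List.mem_append, List.mem_cons]; tauto
              simp only [this]

end Vale.Agent.P174.H834
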