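import Vale.Agent.P174.H834.Word

set_option linter.all false

/-!
# The long rotation is a product of labelled transpositions times the basic rotations
-/

namespace Vale.Agent.P174.H834

open Equiv Mn

variable {D H τ : Type*} [DecidableEq D] [Group H]

theorem Chain.sw_one {a b : D} (h : a ≠ b) (t : H) : Chain (sw a b t) 1 1 :=
  ⟨[sw a b t], rfl, fun R hR => ⟨a, b, t, h, List.mem_singleton.1 hR⟩, by simp⟩

theorem rot_pair (c : D → H) {a b : D} (h : a ≠ b) (hc : c a = (c b)⁻¹) :
    rot c [a, b] = sw b a (c b) := by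
  refine ext' (fun d => ?_) (fun d => ?_)
  · rw [rot_σ, sw_σ, List.formPerm_pair, swap_comm]
  · rw [rot_c, sw_c]
    simp only [List.mem_cons, List.not_mem_nil, or_false]
    by_cases h1 : d = a
    · subst h1
      rw [if_pos (Or.inl rfl), if_neg h, if_pos rfl, hc]
    · by_cases h2 : d = b
      · subst h2
        rw [if_pos (Or.inr rfl), if_pos rfl]
      · rw [if_neg (by tauto), if_neg h2, if_neg h1]

/-- Description of the basic element on a block. -/
structure IsBlk (c : D → H) (T : List τ) (p q : τ → D) (X : List D) (isG : τ → Bool)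
    (x : Mn D H) : Prop where
  relσ : ∀ d ∈ X, x.σ d = X.formPerm d
  relc : ∀ d ∈ X, x.c d = c d
  pσ : ∀ t ∈ T, x.σ (p t) = if isG t then p t else q t
  qσ : ∀ t ∈ T, x.σ (q t) = if isG t then q t else p t
  pc : ∀ t ∈ T, x.c (p t) = 1
  qc : ∀ t ∈ T, x.c (q t) = 1
  oσ : ∀ d, d ∉ T.map p ++ X ++ T.reverse.map q → x.σ d = d
  oc : ∀ d, d ∉ T.map p ++ X ++ T.reverse.map q → x.c d = 1

theorem nest (c : D → H) (p q : τ → D) {X : List D} (hX : X ≠ []) (isG : τ → Bool) :
    ∀ T : List τ, (T.map p ++ X ++ T.reverse.map q).Nodup →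
      (∀ t ∈ T, c (q t) = (c (p t))⁻¹) → (∀ t ∈ T, isG t = false → c (p t) = 1) →
      ∃ x, Chain (rot c (T.map p ++ X ++ T.reverse.map q)) x (T.length + (T.filter isG).length) ∧
        IsBlk c T p q X isG x := by
  intro T
  induction T with
  | nil =>
    intro _ _ _
    refine ⟨rot c X, by simpa using Chain.refl _, fun d _ => rfl, fun d hd => ?_, by simp, by simp,
      by simp, by simp, fun d hd => ?_, fun d hd => ?_⟩
    · rw [rot_c, if_pos hd]
    · exact rot_σ_of_notMem c (by simpa using hd)
    · rw [rot_c, if_neg (by simpa using hd)]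
  | cons t T ih =>
    intro hn hc hcL
    set Y := T.map p ++ X ++ T.reverse.map q with hY
    have hYne : Y ≠ [] := by
      intro h
      rw [hY] at h
      exact hX (List.append_eq_nil_iff.1 (List.append_eq_nil_iff.1 h).1).2
    have e0 : (t :: T).map p ++ X ++ (t :: T).reverse.map q = p t :: (Y ++ [q t]) := by
      rw [hY]; simp
    rw [e0] at hn ⊢
    have hr : p t :: (Y ++ [q t]) ~r Y ++ [q t, p t] := by
      have h1 : p t :: (Y ++ [q t]) = [p t] ++ (Y ++ [q t]) := rfl
      have h2 : Y ++ [q t, p t] = (Y ++ [q t]) ++ [p t] := by simp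
      rw [h1, h2]
      exact List.isRotated_append
    have hn' : (Y ++ [q t, p t]).Nodup := hr.nodup_iff.1 hn
    have hnY : Y.Nodup := (List.nodup_append.1 hn').1
    have hpY : p t ∉ Y := fun h => (List.nodup_append.1 hn').2.2 _ h (p t) (by simp) rfl
    have hqY : q t ∉ Y := fun h => (List.nodup_append.1 hn').2.2 _ h (q t) (by simp) rfl
    have hpq : q t ≠ p t := by
      have := (List.nodup_append.1 hn').2.1
      simp at this
      exact this
    obtain ⟨x, hx, hB⟩ := ih hnY (fun t' h => hc t' (List.mem_cons_of_mem _ h))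
      (fun t' h => hcL t' (List.mem_cons_of_mem _ h))
    have h1 : Chain (rot c (p t :: (Y ++ [q t]))) (rot c Y * rot c [q t, p t]) 1 := by
      rw [rot_rotated c hr hn, rot_append c hYne (by simp) hn']
      refine ⟨[_], rfl, fun R hR => ?_, by simp; rfl⟩
      rw [List.mem_singleton] at hR
      subst hR
      refine ⟨_, _, _, ?_, rfl⟩
      intro h
      have h2 : Y.getLast hYne ∈ Y := List.getLast_mem _
      rw [h] at h2
      exact hpY h2
    have h2 : rot c [q t, p t] = sw (p t) (q t) (c (p t)) :=
      rot_pair c hpq (hc t (by simp))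
    rw [h2] at h1
    have hpY' : p t ∉ T.map p ++ X ++ T.reverse.map q := hpY
    have hqY' : q t ∉ T.map p ++ X ++ T.reverse.map q := hqY
    have hxp := hB.oσ _ hpY'
    have hxq := hB.oσ _ hqY'
    have hcp := hB.oc _ hpY'
    have hcq := hB.oc _ hqY'
    have hmp : ∀ t' ∈ T, p t' ∈ Y := fun t' h => by rw [hY]; simp; left; exact ⟨t', h, rfl⟩
    have hmq : ∀ t' ∈ T, q t' ∈ Y := fun t' h => by rw [hY]; simp; right; right; exact ⟨t', h, rfl⟩
    have hmX : ∀ d ∈ X, d ∈ Y := fun d h => by rw [hY]; simp; right; left; exact h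
    have hneY : ∀ d ∈ Y, d ≠ p t ∧ d ≠ q t := fun d h =>
      ⟨fun e => hpY (e ▸ h), fun e => hqY (e ▸ h)⟩
    by_cases hG : isG t = true
    · -- a coefficient
      refine ⟨x, ?_, ?_⟩
      · have h3 := ((Chain.sw_one (Ne.symm hpq) (c (p t))).mul_left (rot c Y))
        rw [mul_one] at h3
        have h4 := (h1.trans h3).trans hx
        rw [List.length_cons, List.filter_cons_of_pos hG, List.length_cons]
        convert h4 using 1
        omega
      · refine ⟨hB.relσ, hB.relc, ?_, ?_, ?_, ?_, ?_, ?_⟩
        · intro t' h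
          rcases List.mem_cons.1 h with rfl | h
          · rw [if_pos hG]; exact hxp
          · exact hB.pσ t' h
        · intro t' h
          rcases List.mem_cons.1 h with rfl | h
          · rw [if_pos hG]; exact hxq
          · exact hB.qσ t' h
        · intro t' h
          rcases List.mem_cons.1 h with rfl | h
          · exact hcp
          · exact hB.pc t' h
        · intro t' h
          rcases List.mem_cons.1 h with rfl | h
          · exact hcq
          · exact hB.qc t' h
        · intro d hd
          apply hB.oσ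
          intro h
          apply hd
          rw [e0]
          exact List.mem_cons_of_mem _ (List.mem_append_left _ h)
        · intro d hd
          apply hB.oc
          intro h
          apply hd
          rw [e0]
          exact List.mem_cons_of_mem _ (List.mem_append_left _ h)
    · -- a letter
      have hG' : isG t = false := by simpa using hG
      rw [hcL t (by simp) hG'] at h1
      refine ⟨x * sw (p t) (q t) 1, ?_, ?_⟩
      · have h4 := h1.trans (hx.mul_right (sw (p t) (q t) 1))
        rw [List.length_cons, List.filter_cons_of_neg hG]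
        convert h4 using 1
        omega
      · have key : ∀ d, d ≠ p t → d ≠ q t → (x * sw (p t) (q t) 1).σ d = x.σ d ∧
            (x * sw (p t) (q t) 1).c d = x.c d := by
          intro d h5 h6
          have h7 : x.σ d ≠ p t := fun h => h5 (x.σ.injective (h.trans hxp.symm))
          have h8 : x.σ d ≠ q t := fun h => h6 (x.σ.injective (h.trans hxq.symm))
          constructor
          · rw [mul_σ, sw_σ, swap_apply_of_ne_of_ne h7 h8]
          · rw [mul_c, sw_c, if_neg h7, if_neg h8, mul_one]
        refine ⟨?_, ?_, ?_, ?_, ?_, ?_, ?_, ?_⟩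
        · intro d hd
          have := hneY d (hmX d hd)
          rw [(key d this.1 this.2).1]
          exact hB.relσ d hd
        · intro d hd
          have := hneY d (hmX d hd)
          rw [(key d this.1 this.2).2]
          exact hB.relc d hd
        · intro t' h
          rcases List.mem_cons.1 h with rfl | h
          · rw [mul_σ, hxp, sw_σ, swap_apply_left, if_neg hG]
          · have := hneY _ (hmp t' h)
            rw [(key _ this.1 this.2).1]
            exact hB.pσ t' h
        · intro t' h
          rcases List.mem_cons.1 h with rfl | h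
          · rw [mul_σ, hxq, sw_σ, swap_apply_right, if_neg hG]
          · have := hneY _ (hmq t' h)
            rw [(key _ this.1 this.2).1]
            exact hB.qσ t' h
        · intro t' h
          rcases List.mem_cons.1 h with rfl | h
          · rw [mul_c, hxp, hcp, sw_c, if_pos rfl, one_mul]
          · have := hneY _ (hmp t' h)
            rw [(key _ this.1 this.2).2]
            exact hB.pc t' h
        · intro t' h
          rcases List.mem_cons.1 h with rfl | h
          · rw [mul_c, hxq, hcq, sw_c, if_neg hpq, if_pos rfl, one_mul, inv_one]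
          · have := hneY _ (hmq t' h)
            rw [(key _ this.1 this.2).2]
            exact hB.qc t' h
        · intro d hd
          rw [e0] at hd
          have h5 : d ≠ p t := fun h => hd (by simp [h])
          have h6 : d ≠ q t := fun h => hd (by simp [h])
          rw [(key d h5 h6).1]
          apply hB.oσ
          intro h
          exact hd (List.mem_cons_of_mem _ (List.mem_append_left _ h))
        · intro d hd
          rw [e0] at hd
          have h5 : d ≠ p t := fun h => hd (by simp [h])
          have h6 : d ≠ q t := fun h => hd (by simp [h])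
          rw [(key d h5 h6).2]
          apply hB.oc
          intro h
          exact hd (List.mem_cons_of_mem _ (List.mem_append_left _ h))

/-- Concatenation of blocks. -/
theorem concat {S : Type*} (c : D → H) (blk : S → List D) (xs : S → Mn D H) (ks : S → ℕ)
    (hne : ∀ s, blk s ≠ []) (hch : ∀ s, Chain (rot c (blk s)) (xs s) (ks s))
    (hout : ∀ s d, d ∉ blk s → (xs s).σ d = d ∧ (xs s).c d = 1)
    (hin : ∀ s d, d ∈ blk s → (xs s).σ d ∈ blk s) :
    ∀ (A : List D) (Sl : List S), A ≠ [] → (A ++ Sl.flatMap blk).Nodup →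
      ∃ x, Chain (rot c (A ++ Sl.flatMap blk)) (rot c A * x) (Sl.length + (Sl.map ks).sum) ∧
        (∀ s ∈ Sl, ∀ d ∈ blk s, x.σ d = (xs s).σ d ∧ x.c d = (xs s).c d) ∧
        (∀ d, d ∉ Sl.flatMap blk → x.σ d = d ∧ x.c d = 1) := by
  intro A Sl
  induction Sl generalizing A with
  | nil =>
    intro hA _
    exact ⟨1, by simpa using Chain.refl _, by simp, fun d _ => ⟨rfl, rfl⟩⟩
  | cons s Sl ih =>
    intro hA hn
    rw [List.flatMap_cons] at hn ⊢
    have hn1 : (blk s ++ Sl.flatMap blk).Nodup := (List.nodup_append.1 hn).2.1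
    obtain ⟨x, hx, hx1, hx2⟩ := ih (blk s) (hne s) hn1
    have hne' : blk s ++ Sl.flatMap blk ≠ [] := by
      intro h; exact hne s (List.append_eq_nil_iff.1 h).1
    have h1 : Chain (rot c (A ++ (blk s ++ Sl.flatMap blk)))
        (rot c A * rot c (blk s ++ Sl.flatMap blk)) 1 := by
      rw [rot_append c hA hne' hn]
      refine ⟨[_], rfl, fun R hR => ?_, by simp; rfl⟩
      rw [List.mem_singleton] at hR
      subst hR
      refine ⟨_, _, _, ?_, rfl⟩
      intro h
      exact (List.nodup_append.1 hn).2.2 _ (List.getLast_mem hA) _ (List.getLast_mem hne') h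
    have h2 := (h1.trans (hx.mul_left (rot c A))).trans
      (((hch s).mul_right x).mul_left (rot c A))
    refine ⟨xs s * x, ?_, ?_, ?_⟩
    · rw [List.length_cons, List.map_cons, List.sum_cons]
      convert h2 using 1
      omega
    · intro s' hs' d hd
      rcases List.mem_cons.1 hs' with rfl | hs'
      · have h3 : (xs s').σ d ∉ Sl.flatMap blk := fun h =>
          (List.nodup_append.1 hn1).2.2 _ (hin _ _ hd) _ h rfl
        rw [mul_σ, mul_c, (hx2 _ h3).1, (hx2 _ h3).2, mul_one]
        exact ⟨rfl, rfl⟩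
      · have h3 : d ∉ blk s := fun h =>
          (List.nodup_append.1 hn1).2.2 _ h _ (List.mem_flatMap.2 ⟨s', hs', hd⟩) rfl
        rw [mul_σ, mul_c, (hout s d h3).1, (hout s d h3).2, one_mul]
        exact hx1 s' hs' d hd
    · intro d hd
      simp only [List.mem_append, not_or] at hd
      rw [mul_σ, mul_c, (hout s d hd.1).1, (hout s d hd.1).2, one_mul]
      exact hx2 d hd.2

namespace WD

variable {m n N : ℕ} {G : Type*} [Group G]

/-- Permutation of the darts given by the basic cyclic words. -/
def fσ (W : WD m n N G) : W.D → W.D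
  | Sum.inl (r, b, x) => if b then Sum.inl (⟨r.1, ⟨W.nx r.1 r.2, W.nx_lt _ _⟩⟩, b, x)
      else Sum.inl (⟨r.1, ⟨W.pv r.1 r.2, W.pv_lt _ _⟩⟩, b, x)
  | Sum.inr (Sum.inl (t, b)) => Sum.inr (Sum.inl (t, !b))
  | Sum.inr (Sum.inr z) => Sum.inr (Sum.inr z)

/-- Labels of the basic cyclic words. -/
def fc (W : WD m n N G) : W.D → HH G
  | Sum.inl (r, b, x) => (if b then W.c r.1 r.2 else (W.c r.1 (W.pv r.1 r.2))⁻¹, 1)
  | Sum.inr _ => 1

/-- Coefficient tokens. -/
def isQ (W : WD m n N G) (t : W.T) : Bool := !(W.tok t).isLeft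

theorem rel_ne (W : WD m n N G) (s : Fin m × Bool × Fin N) : W.rel s ≠ [] := by
  intro h
  have h1 : (Sum.inl (⟨s.1, ⟨0, W.hℓ s.1⟩⟩, s.2.1, s.2.2) : W.D) ∈ W.rel s :=
    W.mem_rel.2 ⟨_, rfl⟩
  rw [h] at h1
  simp at h1

theorem rel_formPerm (W : WD m n N G) (s : Fin m × Bool × Fin N) (k : Fin (W.ℓ s.1)) :
    (W.rel s).formPerm (Sum.inl (⟨s.1, k⟩, s.2.1, s.2.2)) =
      W.fσ (Sum.inl (⟨s.1, k⟩, s.2.1, s.2.2)) := by
  obtain ⟨i, b, x⟩ := s
  have hpos := W.hℓ i
  cases b
  · have hlen : (W.rel (i, false, x)).length = W.ℓ i := by simp [rel]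
    have hget : ∀ j (hj : j < (W.rel (i, false, x)).length),
        (W.rel (i, false, x))[j] = Sum.inl (⟨i, ⟨W.ℓ i - 1 - j, by omega⟩⟩, false, x) := by
      intro j hj
      simp only [rel, Bool.false_eq_true, if_false, List.getElem_map, List.getElem_reverse,
        List.length_finRange, List.getElem_finRange]
      rfl
    have hk : (k : ℕ) < W.ℓ i := k.2
    have hj : W.ℓ i - 1 - (k : ℕ) < (W.rel (i, false, x)).length := by rw [hlen]; omega
    have h1 := List.formPerm_apply_getElem _ (W.nodup_rel (i, false, x)) _ hj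
    rw [hget _ hj] at h1
    have e1 : (⟨W.ℓ i - 1 - (W.ℓ i - 1 - (k : ℕ)), by omega⟩ : Fin (W.ℓ i)) = k := by
      ext; simp only; omega
    rw [e1] at h1
    rw [h1, hget]
    simp only [fσ, Bool.false_eq_true, if_false]
    congr 3
    have e2 : (⟨W.ℓ i - 1 - (W.ℓ i - 1 - (k : ℕ) + 1) % (W.rel (i, false, x)).length, by omega⟩ :
        Fin (W.ℓ i)) = ⟨W.pv i k, W.pv_lt _ _⟩ := by
      ext
      simp only [hlen, pv]
      rcases Nat.eq_zero_or_pos (k : ℕ) with h2 | h2
      · rw [h2]
        have h3 : W.ℓ i - 1 - 0 + 1 = W.ℓ i := by omega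
        have h4 : 0 + W.ℓ i - 1 < W.ℓ i := by omega
        rw [h3, Nat.mod_self, Nat.mod_eq_of_lt h4]
        omega
      · have h3 : W.ℓ i - 1 - (k : ℕ) + 1 < W.ℓ i := by omega
        have h4 : (k : ℕ) + W.ℓ i - 1 = ((k : ℕ) - 1) + W.ℓ i := by omega
        rw [Nat.mod_eq_of_lt h3, h4, Nat.add_mod_right, Nat.mod_eq_of_lt (by omega)]
        omega
    rw [e2]
  · have hlen : (W.rel (i, true, x)).length = W.ℓ i := by simp [rel]
    have hget : ∀ j (hj : j < (W.rel (i, true, x)).length),
        (W.rel (i, true, x))[j] = Sum.inl (⟨i, ⟨j, by omega⟩⟩, true, x) := by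
      intro j hj
      simp only [rel, if_true, List.getElem_map, List.getElem_finRange]
      rfl
    have hj : (k : ℕ) < (W.rel (i, true, x)).length := by rw [hlen]; exact k.2
    have h1 := List.formPerm_apply_getElem _ (W.nodup_rel (i, true, x)) _ hj
    rw [hget _ hj] at h1
    have e1 : (⟨(k : ℕ), by omega⟩ : Fin (W.ℓ i)) = k := rfl
    rw [e1] at h1
    rw [h1, hget]
    simp only [fσ, if_true]
    congr 3
    have e2 : (⟨((k : ℕ) + 1) % (W.rel (i, true, x)).length, by
        rw [hlen]; exact Nat.mod_lt _ hpos⟩ : Fin (W.ℓ i)) = ⟨W.nx i k, W.nx_lt _ _⟩ := by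
      ext
      simp only [hlen, nx]
    rw [e2]

/-- **The long rotation in terms of the basic rotations.** -/
theorem build (W : WD m n N G) : ∃ x : Mn W.D (HH G),
    Chain (rot W.cH (W.m0 :: W.L)) x
      (W.Sl.length + (W.Sl.map fun s => (W.Tl s).length + ((W.Tl s).filter W.isQ).length).sum) ∧
    (∀ d, x.σ d = W.fσ d) ∧ (∀ d, x.c d = W.fc d) := by
  have hcq : ∀ t, W.cH (W.q t) = (W.cH (W.p t))⁻¹ := by
    intro t
    unfold p q
    split_ifs with h
    · simp [cH, cc]
    · simp [cH, cc]
  have hcp : ∀ t, W.isQ t = false → W.cH (W.p t) = 1 := by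
    intro t ht
    have h : (W.tok t).isLeft = true := by simpa [isQ] using ht
    unfold p
    rw [dif_pos h]
    rfl
  choose xs hch hB using fun s => nest W.cH W.p W.q (W.rel_ne s) W.isQ (W.Tl s) (W.nodup_blk s)
    (fun t _ => hcq t) (fun t _ => hcp t)
  have hne : ∀ s, W.blk s ≠ [] := by
    intro s h
    unfold blk at h
    simp only [List.append_eq_nil_iff] at h
    exact W.rel_ne s h.1.2
  have hout : ∀ s d, d ∉ W.blk s → (xs s).σ d = d ∧ (xs s).c d = 1 := fun s d hd =>
    ⟨(hB s).oσ d hd, (hB s).oc d hd⟩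
  have hin : ∀ s d, d ∈ W.blk s → (xs s).σ d ∈ W.blk s := by
    intro s d hd
    by_contra hcon
    have h1 := (hout s _ hcon).1
    have h2 := (xs s).σ.injective h1
    rw [h2] at hcon
    exact hcon hd
  obtain ⟨x, hx, hx1, hx2⟩ := concat W.cH W.blk xs _ hne hch hout hin [W.m0] W.Sl (by simp)
    W.nodup_L
  have hm : rot W.cH [W.m0] = 1 := by
    refine ext' (fun d => ?_) (fun d => ?_)
    · simp [rot_σ, one_σ]
    · rw [rot_c, one_c]
      split_ifs with h
      · rw [List.mem_singleton.1 h]; rfl
      · rfl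
  rw [hm, one_mul] at hx
  refine ⟨x, hx, ?_, ?_⟩
  · intro d
    rcases d with ⟨⟨i, k⟩, b, y⟩ | ⟨t, b⟩ | ⟨t, b⟩ | u
    · have hd : (Sum.inl (⟨i, k⟩, b, y) : W.D) ∈ W.rel (i, b, y) := W.mem_rel.2 ⟨k, rfl⟩
      have hd' : (Sum.inl (⟨i, k⟩, b, y) : W.D) ∈ W.blk (i, b, y) := by
        unfold blk
        exact List.mem_append_left _ (List.mem_append_right _ hd)
      rw [(hx1 _ (W.mem _) _ hd').1, (hB _).relσ _ hd]
      exact W.rel_formPerm (i, b, y) k
    · have ht : W.isQ t.1 = false := by simp [isQ, t.2]
      cases b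
      · have e : (Sum.inr (Sum.inl (t, false)) : W.D) = W.q t.1 := by
          unfold q; rw [dif_pos t.2]
        have hd' : W.q t.1 ∈ W.blk t.1.1 := by
          unfold blk
          exact List.mem_append_right _ (List.mem_map.2 ⟨t.1, List.mem_reverse.2
            (W.mem_Tl.2 rfl), rfl⟩)
        rw [e, (hx1 _ (W.mem _) _ hd').1, (hB _).qσ _ (W.mem_Tl.2 rfl), ht, ← e]
        simp only [Bool.false_eq_true, if_false, fσ, Bool.not_false]
        unfold p
        rw [dif_pos t.2]
      · have e : (Sum.inr (Sum.inl (t, true)) : W.D) = W.p t.1 := by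
          unfold p; rw [dif_pos t.2]
        have hd' : W.p t.1 ∈ W.blk t.1.1 := by
          unfold blk
          exact List.mem_append_left _ (List.mem_append_left _ (List.mem_map.2 ⟨t.1,
            (W.mem_Tl.2 rfl), rfl⟩))
        rw [e, (hx1 _ (W.mem _) _ hd').1, (hB _).pσ _ (W.mem_Tl.2 rfl), ht, ← e]
        simp only [Bool.false_eq_true, if_false, fσ, Bool.not_true]
        unfold q
        rw [dif_pos t.2]
    · have ht : W.isQ t.1 = true := by
        have := t.2
        simp only [isQ]
        simpa using this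
      cases b
      · have e : (Sum.inr (Sum.inr (Sum.inl (t, false))) : W.D) = W.q t.1 := by
          unfold q; rw [dif_neg t.2]
        have hd' : W.q t.1 ∈ W.blk t.1.1 := by
          unfold blk
          exact List.mem_append_right _ (List.mem_map.2 ⟨t.1, List.mem_reverse.2
            (W.mem_Tl.2 rfl), rfl⟩)
        rw [e, (hx1 _ (W.mem _) _ hd').1, (hB _).qσ _ (W.mem_Tl.2 rfl), ht, ← e]
        rfl
      · have e : (Sum.inr (Sum.inr (Sum.inl (t, true))) : W.D) = W.p t.1 := by
          unfold p; rw [dif_neg t.2]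
        have hd' : W.p t.1 ∈ W.blk t.1.1 := by
          unfold blk
          exact List.mem_append_left _ (List.mem_append_left _ (List.mem_map.2 ⟨t.1,
            (W.mem_Tl.2 rfl), rfl⟩))
        rw [e, (hx1 _ (W.mem _) _ hd').1, (hB _).pσ _ (W.mem_Tl.2 rfl), ht, ← e]
        rfl
    · have h1 : (Sum.inr (Sum.inr (Sum.inr u)) : W.D) ∉ W.Sl.flatMap W.blk :=
        (List.nodup_cons.1 W.nodup_L).1
      rw [(hx2 _ h1).1]
      rfl
  · intro d
    rcases d with ⟨⟨i, k⟩, b, y⟩ | ⟨t, b⟩ | ⟨t, b⟩ | u
    · have hd : (Sum.inl (⟨i, k⟩, b, y) : W.D) ∈ W.rel (i, b, y) := W.mem_rel.2 ⟨k, rfl⟩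
      have hd' : (Sum.inl (⟨i, k⟩, b, y) : W.D) ∈ W.blk (i, b, y) := by
        unfold blk
        exact List.mem_append_left _ (List.mem_append_right _ hd)
      rw [(hx1 _ (W.mem _) _ hd').2, (hB _).relc _ hd]
      rfl
    · cases b
      · have e : (Sum.inr (Sum.inl (t, false)) : W.D) = W.q t.1 := by
          unfold q; rw [dif_pos t.2]
        have hd' : W.q t.1 ∈ W.blk t.1.1 := by
          unfold blk
          exact List.mem_append_right _ (List.mem_map.2 ⟨t.1, List.mem_reverse.2
            (W.mem_Tl.2 rfl), rfl⟩)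
        rw [e, (hx1 _ (W.mem _) _ hd').2, (hB _).qc _ (W.mem_Tl.2 rfl), ← e]
        rfl
      · have e : (Sum.inr (Sum.inl (t, true)) : W.D) = W.p t.1 := by
          unfold p; rw [dif_pos t.2]
        have hd' : W.p t.1 ∈ W.blk t.1.1 := by
          unfold blk
          exact List.mem_append_left _ (List.mem_append_left _ (List.mem_map.2 ⟨t.1,
            (W.mem_Tl.2 rfl), rfl⟩))
        rw [e, (hx1 _ (W.mem _) _ hd').2, (hB _).pc _ (W.mem_Tl.2 rfl), ← e]
        rfl
    · cases b
      · have e : (Sum.inr (Sum.inr (Sum.inl (t, false))) : W.D) = W.q t.1 := by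
          unfold q; rw [dif_neg t.2]
        have hd' : W.q t.1 ∈ W.blk t.1.1 := by
          unfold blk
          exact List.mem_append_right _ (List.mem_map.2 ⟨t.1, List.mem_reverse.2
            (W.mem_Tl.2 rfl), rfl⟩)
        rw [e, (hx1 _ (W.mem _) _ hd').2, (hB _).qc _ (W.mem_Tl.2 rfl), ← e]
        rfl
      · have e : (Sum.inr (Sum.inr (Sum.inl (t, true))) : W.D) = W.p t.1 := by
          unfold p; rw [dif_neg t.2]
        have hd' : W.p t.1 ∈ W.blk t.1.1 := by
          unfold blk
          exact List.mem_append_left _ (List.mem_append_left _ (List.mem_map.2 ⟨t.1,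
            (W.mem_Tl.2 rfl), rfl⟩))
        rw [e, (hx1 _ (W.mem _) _ hd').2, (hB _).pc _ (W.mem_Tl.2 rfl), ← e]
        rfl
    · have h1 : (Sum.inr (Sum.inr (Sum.inr u)) : W.D) ∉ W.Sl.flatMap W.blk :=
        (List.nodup_cons.1 W.nodup_L).1
      rw [(hx2 _ h1).2]
      rfl

theorem card_T (W : WD m n N G) : Fintype.card W.B + Fintype.card W.Q = Fintype.card W.T := by
  have := Fintype.card_subtype_compl (fun t : W.T => (W.tok t).isLeft = true)
  have h2 := Fintype.card_subtype_le (fun t : W.T => (W.tok t).isLeft = true)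
  have h3 : Fintype.card W.Q = Fintype.card W.T - Fintype.card W.B := this
  have h4 : Fintype.card W.B ≤ Fintype.card W.T := h2
  omega

/-- Number of the labelled transpositions in `build`. -/
theorem count_k (W : WD m n N G) :
    W.Sl.length + (W.Sl.map fun s => (W.Tl s).length + ((W.Tl s).filter W.isQ).length).sum =
      2 * m * N + Fintype.card W.B + 2 * Fintype.card W.Q := by
  have h1 : W.Sl.toFinset = Finset.univ := by
    ext s; simp [W.mem s]
  have h2 : W.Sl.length = 2 * m * N := by
    rw [← List.toFinset_card_of_nodup W.nodup, h1, Finset.card_univ]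
    simp only [Fintype.card_prod, Fintype.card_fin, Fintype.card_bool]
    ring
  rw [h2, ← List.sum_toFinset _ W.nodup, h1, Finset.sum_add_distrib]
  have h3 : ∑ s, (W.Tl s).length = Fintype.card W.T := by
    rw [Fintype.card_sigma]
    exact Finset.sum_congr rfl fun s _ => by simp [Tl]
  have h4 : ∑ s, ((W.Tl s).filter W.isQ).length = Fintype.card W.Q := by
    have h5 : ∀ s, ((W.Tl s).filter W.isQ).length =
        ∑ j : Fin (W.len s), if W.isQ ⟨s, j⟩ = true then 1 else 0 := by
      intro s
      rw [Finset.sum_boole, Nat.cast_id,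
        ← List.toFinset_card_of_nodup ((W.nodup_Tl s).filter _)]
      have h6 : ((W.Tl s).filter W.isQ).toFinset =
          (Finset.univ.filter fun j : Fin (W.len s) => W.isQ ⟨s, j⟩ = true).map
            ⟨fun j => (⟨s, j⟩ : W.T), fun a b h => by simpa using h⟩ := by
        ext t
        simp only [List.mem_toFinset, List.mem_filter, Finset.mem_map, Finset.mem_filter,
          Finset.mem_univ, true_and, Function.Embedding.coeFn_mk, mem_Tl]
        constructor
        · rintro ⟨rfl, h⟩
          exact ⟨t.2, h, rfl⟩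
        · rintro ⟨j, h, rfl⟩
          exact ⟨rfl, h⟩
      rw [h6, Finset.card_map]
    rw [Fintype.card_subtype]
    rw [Finset.card_filter]
    rw [Fintype.sum_sigma]
    refine Finset.sum_congr rfl fun s _ => ?_
    rw [h5]
    refine Finset.sum_congr rfl fun j _ => ?_
    simp [isQ]
  rw [h3, h4, ← W.card_T]
  ring

end WD

end Vale.Agent.P174.H834
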