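import Vale.Agent.P174.H834.Word
import Vale.Agent.P174.H49.W1

set_option linter.all false

/-!
# From a balanced product of conjugates to the data of a long word
-/

namespace Vale.Agent.P174.H834

open Vale.Agent.P174 Vale.Agent.P174.H49

variable {n m : ℕ} {G : Type*} [Group G]

theorem exists_tok (x : Words G n) : ∃ l : List (Let n ⊕ G), (l.map WD.tv).prod = x := by
  induction x using Monoid.Coprod.induction_on with
  | inl g => exact ⟨[Sum.inr g], by simp [WD.tv]⟩
  | inr z =>
    induction z using FreeGroup.induction_on with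
    | C1 => exact ⟨[], by simp⟩
    | of j => exact ⟨[Sum.inl (j, true)], by simp [WD.tv, lv]⟩
    | inv_of j _ => exact ⟨[Sum.inl (j, false)], by simp [WD.tv, lv]⟩
    | mul a b ha hb =>
      obtain ⟨l, hl⟩ := ha
      obtain ⟨l', hl'⟩ := hb
      exact ⟨l ++ l', by simp [hl, hl']⟩
  | mul a b ha hb =>
    obtain ⟨l, hl⟩ := ha
    obtain ⟨l', hl'⟩ := hb
    exact ⟨l ++ l', by simp [hl, hl']⟩

theorem wv_cons (q : Let n × G) (l : List (Let n × G)) :
    wv (q :: l) = lv G q.1 * Monoid.Coprod.inl q.2 * wv l := by simp [wv]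

theorem wv_append (l l' : List (Let n × G)) : wv (l ++ l') = wv l * wv l' := by simp [wv]

theorem exists_form (x : Words G n) :
    ∃ (g : G) (l : List (Let n × G)), x = Monoid.Coprod.inl g * wv l := by
  obtain ⟨t, rfl⟩ := exists_tok x
  induction t with
  | nil => exact ⟨1, [], by simp [wv]⟩
  | cons a t ih =>
    obtain ⟨g, l, h⟩ := ih
    rw [List.map_cons, List.prod_cons, h]
    rcases a with y | k
    · exact ⟨1, (y, g) :: l, by rw [wv_cons]; simp [WD.tv, mul_assoc]⟩
    · exact ⟨k * g, l, by simp [WD.tv, mul_assoc]⟩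

theorem expSum_inl (g : G) : expSum G n (Monoid.Coprod.inl g) = 1 := by simp [expSum]

/-- Sign of a letter. -/
def sgn (b : Bool) : ℤ := if b then 1 else -1

theorem expSum_lv (y : Let n) (j : Fin n) :
    Multiplicative.toAdd (expSum G n (lv G y)) j = if y.1 = j then sgn y.2 else 0 := by
  rcases y with ⟨i, b⟩
  cases b
  · simp only [lv, Bool.false_eq_true, if_false, map_inv, expSum, Monoid.Coprod.lift_apply_inr,
      FreeGroup.lift_apply_of, toAdd_inv, toAdd_ofAdd, Pi.neg_apply, sgn, Pi.single_apply]
    by_cases h : i = j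
    · subst h; simp
    · simp [h, Ne.symm h]
  · simp only [lv, if_true, expSum, Monoid.Coprod.lift_apply_inr,
      FreeGroup.lift_apply_of, toAdd_ofAdd, sgn, Pi.single_apply]
    by_cases h : i = j
    · subst h; simp
    · simp [h, Ne.symm h]

/-- The relators as cyclic words. -/
theorem exists_cyc {w : Fin m → Words G n} (hw : FullRank ℚ w) (i : Fin m) :
    ∃ (a : G) (ℓ : ℕ) (_ : 0 < ℓ) (y : ℕ → Let n) (c : ℕ → G),
      w i = Monoid.Coprod.inl a * ((List.range ℓ).map fun k =>
        lv G (y k) * Monoid.Coprod.inl (c k)).prod * (Monoid.Coprod.inl a)⁻¹ := by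
  obtain ⟨g, l, h⟩ := exists_form (w i)
  have hl : l ≠ [] := by
    rintro rfl
    have h1 := eq_zero_of_fullRank hw (c := Pi.single i 1) (by
      intro j
      rw [Finset.sum_eq_single i]
      · have : expSum G n (w i) = 1 := by rw [h]; simp [wv, expSum_inl]
        simp [expMatrix, this]
      · intro b _ hb; simp [hb]
      · intro hi; exact absurd (Finset.mem_univ _) hi)
    have := congrFun h1 i
    simp at this
  obtain ⟨l', q, rfl⟩ : ∃ l' q, l = l' ++ [q] :=
    ⟨l.dropLast, l.getLast hl, (List.dropLast_append_getLast hl).symm⟩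
  set r : List (Let n × G) := l' ++ [(q.1, q.2 * g)] with hr
  have hrne : 0 < r.length := by simp [hr]
  have hrv : wv r = wv (l' ++ [q]) * Monoid.Coprod.inl g := by
    rw [hr, wv_append, wv_append]
    simp [wv, mul_assoc]
  have hmap : (List.range r.length).map (fun k => lv G (r.getD k q).1 *
      Monoid.Coprod.inl (r.getD k q).2) = r.map fun p => lv G p.1 * Monoid.Coprod.inl p.2 := by
    apply List.ext_getElem
    · simp
    · intro k h1 h2
      have h3 : k < r.length := by simpa using h1
      simp [List.getElem?_eq_getElem h3]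
  refine ⟨g, r.length, hrne, fun k => (r.getD k q).1, fun k => (r.getD k q).2, ?_⟩
  rw [hmap]
  change w i = Monoid.Coprod.inl g * wv r * (Monoid.Coprod.inl g)⁻¹
  rw [hrv, h]
  group

/-- Enumeration of the factors by the number of the relator, the sign and the copy. -/
theorem exists_enum {α : Type*} (N : ℕ) (L : List (α × Fin m × Bool))
    (hc : ∀ i b, (L.filter fun t => decide (t.2 = (i, b))).length = N) :
    ∃ (Sl : List (Fin m × Bool × Fin N)) (u : Fin m × Bool × Fin N → α), Sl.Nodup ∧
      (∀ s, s ∈ Sl) ∧ L = Sl.map fun s => (u s, s.1, s.2.1) := by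
  classical
  set f : Fin L.length → Fin m × Bool := fun k => (L.get k).2 with hf
  have hcard : ∀ z : Fin m × Bool, Fintype.card {k : Fin L.length // f k = z} = N := by
    intro z
    rw [Fintype.card_subtype, ← hc z.1 z.2]
    have h1 : L.filter (fun t => decide (t.2 = (z.1, z.2))) =
        ((List.finRange L.length).filter fun k => decide (f k = z)).map L.get := by
      conv_lhs => rw [← List.map_get_finRange L, List.filter_map]
      rfl
    rw [h1, List.length_map]
    have h2 : (Finset.univ.filter fun k : Fin L.length => f k = z).card =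
        ((List.finRange L.length).filter fun k => decide (f k = z)).length := by
      rw [← List.toFinset_card_of_nodup ((List.nodup_finRange _).filter _)]
      congr 1
      ext k
      simp
    exact h2
  have e1 : (Σ z : Fin m × Bool, {k : Fin L.length // f k = z}) ≃ Fin L.length :=
    Equiv.sigmaFiberEquiv f
  let e : Fin L.length ≃ (Σ z : Fin m × Bool, Fin N) :=
    (Equiv.sigmaFiberEquiv f).symm.trans
      (Equiv.sigmaCongrRight fun z => Fintype.equivFinOfCardEq (hcard z))
  have he : ∀ k, (e k).1 = f k := fun k => rfl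
  let e' : Fin L.length ≃ Fin m × Bool × Fin N :=
    (e.trans (Equiv.sigmaEquivProd _ _)).trans (Equiv.prodAssoc _ _ _)
  have he' : ∀ k, ((e' k).1, (e' k).2.1) = f k := fun k => he k
  refine ⟨(List.finRange L.length).map e', fun s => (L.get (e'.symm s)).1,
    (List.nodup_finRange _).map e'.injective, fun s => List.mem_map.2 ⟨e'.symm s,
      List.mem_finRange _, by simp⟩, ?_⟩
  rw [List.map_map]
  conv_lhs => rw [← List.map_get_finRange L]
  apply List.map_congr_left
  intro k _
  simp only [Function.comp_apply, Equiv.symm_apply_apply]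
  have := he' k
  rw [Prod.ext_iff] at this
  refine Prod.ext rfl (Prod.ext ?_ ?_)
  · exact this.1.symm
  · exact this.2.symm

/-- **The data of the long word.** -/
theorem exists_WD {w : Fin m → Words G n} (hw : FullRank ℚ w) {g : G} {N : ℕ}
    {L : List (Words G n × Fin m × Bool)} (hL : (L.map (fac w)).prod = Monoid.Coprod.inl g)
    (hc : ∀ i b, cntE L i b = N) :
    ∃ W : WD m n N G, (W.Sl.map fun s => W.uv s * W.sv s * (W.uv s)⁻¹).prod =
      Monoid.Coprod.inl g ∧
      ∀ i j, ∑ k : Fin (W.ℓ i), (if (W.y i k).1 = j then sgn (W.y i k).2 else 0) =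
        expMatrix w i j := by
  choose a ℓ hℓ y c hcyc using fun i => exists_cyc hw i
  obtain ⟨Sl, u, hn, hm, hLe⟩ := exists_enum N L hc
  set u' : Fin m × Bool × Fin N → Words G n := fun s =>
    if s.2.1 then u s * Monoid.Coprod.inl (a s.1)
    else u s * Monoid.Coprod.inl (a s.1) * (Monoid.Coprod.inl (c s.1 (ℓ s.1 - 1)))⁻¹ with hu'
  choose tk htk using fun s => exists_tok (u' s)
  let W : WD m n N G := ⟨ℓ, hℓ, y, c, fun s => (tk s).length, fun t => (tk t.1).get t.2, Sl, hn, hm⟩
  have huv : ∀ s, W.uv s = u' s := by
    intro s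
    unfold WD.uv WD.Tl
    rw [List.map_map, ← htk s]
    conv_rhs => rw [← List.map_get_finRange (tk s), List.map_map]
    rfl
  refine ⟨W, ?_, ?_⟩
  · rw [← hL, hLe, List.map_map]
    congr 1
    apply List.map_congr_left
    intro s _
    rw [huv]
    obtain ⟨i, b, k⟩ := s
    have h1 : W.rv i (W.ℓ i) = (Monoid.Coprod.inl (a i))⁻¹ * w i * Monoid.Coprod.inl (a i) := by
      rw [hcyc i]
      unfold WD.rv
      group
      rfl
    have h3 : W.c i (W.ℓ i - 1) = c i (ℓ i - 1) := rfl
    cases b
    · simp only [hu', WD.sv, Bool.false_eq_true, if_false, fac, Function.comp_apply, h1, h3]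
      group
    · simp only [hu', WD.sv, if_true, fac, Function.comp_apply, h1]
      group
  · intro i j
    have h1 : ∀ k, Multiplicative.toAdd (expSum G n ((List.range k).map fun k =>
        lv G (y i k) * Monoid.Coprod.inl (c i k)).prod) j =
        ∑ k ∈ Finset.range k, (if (y i k).1 = j then sgn (y i k).2 else 0) := by
      intro k
      induction k with
      | zero => simp
      | succ k ih =>
        rw [List.range_succ, List.map_append, List.prod_append, map_mul, toAdd_mul, Pi.add_apply,
          ih, Finset.sum_range_succ, List.map_singleton, List.prod_singleton, map_mul,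
          expSum_inl, mul_one, expSum_lv]
    have h2 : expMatrix w i j = Multiplicative.toAdd (expSum G n ((List.range (ℓ i)).map fun k =>
        lv G (y i k) * Monoid.Coprod.inl (c i k)).prod) j := by
      unfold expMatrix
      have h4 : expSum G n (w i) = expSum G n ((List.range (ℓ i)).map fun k =>
          lv G (y i k) * Monoid.Coprod.inl (c i k)).prod := by
        rw [hcyc i, (expSum G n).map_mul, (expSum G n).map_mul, map_inv, expSum_inl, one_mul,
          inv_one, mul_one]
      rw [h4]
    rw [h2, h1, ← Fin.sum_univ_eq_sum_range]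

end Vale.Agent.P174.H834
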