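import Mathlib

set_option linter.all false

/-!
# Labelled permutations, cyclic words, merging of two cyclic words
-/

namespace Vale.Agent.P174.H834

open Equiv

/-- Labelled permutations (monomial elements): the dart `d` goes to `σ d` with the label `c d`.
The product `x * y` means: first `x`, then `y`. -/
@[ext] structure Mn (D H : Type*) where
  σ : Perm D
  c : D → H

namespace Mn

variable {D H : Type*} [Group H]

instance : Mul (Mn D H) := ⟨fun x y => ⟨x.σ.trans y.σ, fun d => x.c d * y.c (x.σ d)⟩⟩

instance : One (Mn D H) := ⟨⟨Equiv.refl D, fun _ => 1⟩⟩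

instance : Inv (Mn D H) := ⟨fun x => ⟨x.σ.symm, fun d => (x.c (x.σ.symm d))⁻¹⟩⟩

theorem mul_σ (x y : Mn D H) (d : D) : (x * y).σ d = y.σ (x.σ d) := rfl

theorem mul_c (x y : Mn D H) (d : D) : (x * y).c d = x.c d * y.c (x.σ d) := rfl

theorem one_σ (d : D) : (1 : Mn D H).σ d = d := rfl

theorem one_c (d : D) : (1 : Mn D H).c d = 1 := rfl

theorem inv_σ (x : Mn D H) (d : D) : (x⁻¹).σ d = x.σ.symm d := rfl

theorem inv_c (x : Mn D H) (d : D) : (x⁻¹).c d = (x.c (x.σ.symm d))⁻¹ := rfl

theorem ext' {x y : Mn D H} (h1 : ∀ d, x.σ d = y.σ d) (h2 : ∀ d, x.c d = y.c d) : x = y :=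
  Mn.ext (Equiv.ext h1) (funext h2)

instance : Group (Mn D H) where
  mul_assoc x y z := ext' (fun d => rfl) (fun d => by simp only [mul_c, mul_σ, mul_assoc])
  one_mul x := ext' (fun d => rfl) (fun d => by simp only [mul_c, one_c, one_σ, one_mul])
  mul_one x := ext' (fun d => rfl) (fun d => by simp only [mul_c, one_c, mul_one])
  inv_mul_cancel x := ext' (fun d => by simp [mul_σ, inv_σ, one_σ])
    (fun d => by simp [mul_c, inv_c, inv_σ, one_c])

/-- Diagonal element. -/
def dg (c : D → H) : Mn D H := ⟨Equiv.refl D, c⟩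

theorem dg_σ (c : D → H) (d : D) : (dg c).σ d = d := rfl

theorem dg_c (c : D → H) (d : D) : (dg c).c d = c d := rfl

/-- Change of the labels. -/
def map {K : Type*} [Group K] (f : H →* K) (x : Mn D H) : Mn D K := ⟨x.σ, fun d => f (x.c d)⟩

theorem map_σ {K : Type*} [Group K] (f : H →* K) (x : Mn D H) (d : D) :
    (map f x).σ d = x.σ d := rfl

theorem map_c {K : Type*} [Group K] (f : H →* K) (x : Mn D H) (d : D) :
    (map f x).c d = f (x.c d) := rfl

theorem map_mul {K : Type*} [Group K] (f : H →* K) (x y : Mn D H) :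
    map f (x * y) = map f x * map f y :=
  ext' (fun d => rfl) (fun d => by simp only [map_c, mul_c, map_σ, _root_.map_mul])

/-- The matrix of a labelled permutation: the entry at `(d, σ d)` is the label of `d`. -/
def mat {R : Type*} [Semiring R] [DecidableEq D] (ρ : H →* R) (x : Mn D H) : Matrix D D R :=
  Matrix.of fun d e => if x.σ d = e then ρ (x.c d) else 0

theorem mat_apply {R : Type*} [Semiring R] [DecidableEq D] (ρ : H →* R) (x : Mn D H) (d e : D) :
    mat ρ x d e = if x.σ d = e then ρ (x.c d) else 0 := rfl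

theorem mat_mul {R : Type*} [Semiring R] [DecidableEq D] [Fintype D] (ρ : H →* R)
    (x y : Mn D H) : mat ρ (x * y) = mat ρ x * mat ρ y := by
  ext d e
  rw [Matrix.mul_apply, Finset.sum_eq_single (x.σ d)]
  · simp only [mat_apply, mul_σ, mul_c, if_true, _root_.map_mul]
    split_ifs <;> simp
  · intro b _ hb
    rw [mat_apply, if_neg (Ne.symm hb), zero_mul]
  · intro h; exact absurd (Finset.mem_univ _) h

theorem mat_one {R : Type*} [Semiring R] [DecidableEq D] (ρ : H →* R) :
    mat ρ (1 : Mn D H) = 1 := by
  ext d e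
  simp only [mat_apply, one_σ, one_c, map_one, Matrix.one_apply]

variable [DecidableEq D]

/-- Labelled transposition. -/
def sw (a b : D) (t : H) : Mn D H :=
  ⟨swap a b, fun d => if d = a then t else if d = b then t⁻¹ else 1⟩

theorem sw_σ (a b : D) (t : H) (d : D) : (sw a b t).σ d = swap a b d := rfl

theorem sw_c (a b : D) (t : H) (d : D) :
    (sw a b t).c d = if d = a then t else if d = b then t⁻¹ else 1 := rfl

/-- The rotation of the cyclic word `L` with the labels `c`; the other darts are fixed. -/
def rot (c : D → H) (L : List D) : Mn D H := ⟨L.formPerm, fun d => if d ∈ L then c d else 1⟩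

theorem rot_σ (c : D → H) (L : List D) (d : D) : (rot c L).σ d = L.formPerm d := rfl

theorem rot_c (c : D → H) (L : List D) (d : D) : (rot c L).c d = if d ∈ L then c d else 1 := rfl

theorem rot_σ_of_notMem (c : D → H) {L : List D} {d : D} (h : d ∉ L) : (rot c L).σ d = d :=
  List.formPerm_apply_of_notMem h

end Mn

open Mn

variable {D H : Type*} [DecidableEq D]

theorem formPerm_append {A B : List D} (hA : A ≠ []) (hB : B ≠ []) (hn : (A ++ B).Nodup) :
    (A ++ B).formPerm = A.formPerm * B.formPerm * swap (A.getLast hA) (B.getLast hB) := by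
  induction A with
  | nil => exact absurd rfl hA
  | cons a A ih =>
    cases A with
    | nil =>
      obtain ⟨b, B', rfl⟩ := List.exists_cons_of_ne_nil hB
      have hn' : (a :: b :: B').Nodup := hn
      have ha : a ∉ b :: B' := (List.nodup_cons.1 hn').1
      have hB' : (b :: B').Nodup := (List.nodup_cons.1 hn').2
      simp only [List.singleton_append, List.formPerm_singleton, one_mul, List.getLast_singleton]
      rw [List.formPerm_cons_cons]
      have h1 : (b :: B').formPerm * swap a ((b :: B').getLast hB) =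
          swap ((b :: B').formPerm a) ((b :: B').formPerm ((b :: B').getLast hB)) *
            (b :: B').formPerm := by
        rw [Equiv.mul_swap_eq_swap_mul]
      rw [h1, List.formPerm_apply_of_notMem ha, List.formPerm_apply_getLast]
    | cons a' A' =>
      have hn' : (a :: ((a' :: A') ++ B)).Nodup := hn
      have h1 := ih (by simp) (List.nodup_cons.1 hn').2
      have h2 : (a :: a' :: A').getLast hA = (a' :: A').getLast (by simp) :=
        List.getLast_cons (by simp)
      rw [h2, List.cons_append, List.cons_append, List.formPerm_cons_cons, ← List.cons_append,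
        h1, List.formPerm_cons_cons]
      simp only [mul_assoc]

variable [Group H]

/-- **Merging two cyclic words costs one labelled transposition.** -/
theorem rot_append (c : D → H) {A B : List D} (hA : A ≠ []) (hB : B ≠ [])
    (hn : (A ++ B).Nodup) :
    rot c (A ++ B) = sw (A.getLast hA) (B.getLast hB)
      (c (A.getLast hA) * (c (B.getLast hB))⁻¹) * (rot c A * rot c B) := by
  set x := A.getLast hA with hx
  set y := B.getLast hB with hy
  have hxA : x ∈ A := List.getLast_mem hA
  have hyB : y ∈ B := List.getLast_mem hB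
  have hdis : ∀ d, d ∈ A → d ∈ B → False := fun d h1 h2 =>
    (List.nodup_append.1 hn).2.2 d h1 d h2 rfl
  have hxB : x ∉ B := fun h => hdis x hxA h
  have hyA : y ∉ A := fun h => hdis y h hyB
  have hxy : x ≠ y := fun h => hxB (h ▸ hyB)
  have hcomm : A.formPerm * B.formPerm = B.formPerm * A.formPerm := by
    apply Perm.Disjoint.commute
    intro d
    by_cases h : d ∈ A
    · right; exact List.formPerm_apply_of_notMem (fun h' => hdis d h h')
    · left; exact List.formPerm_apply_of_notMem h
  refine ext' (fun d => ?_) (fun d => ?_)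
  · rw [rot_σ, formPerm_append hA hB hn, hcomm]
    simp only [mul_σ, rot_σ, sw_σ, Perm.mul_apply]
    rfl
  · simp only [mul_c, rot_c, sw_c, sw_σ, rot_σ, List.mem_append]
    by_cases h1 : d = x
    · subst h1
      rw [swap_apply_left, if_pos rfl, if_neg hyA, List.formPerm_apply_of_notMem hyA,
        if_pos hyB, if_pos (Or.inl hxA)]
      group
    · by_cases h2 : d = y
      · subst h2
        rw [swap_apply_right, if_neg h1, if_pos rfl, if_pos hxA, if_pos (Or.inr hyB)]
        have h3 : A.formPerm x ∉ B := fun h => hdis _ (List.formPerm_apply_mem_of_mem hxA) h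
        rw [if_neg h3]
        group
      · rw [swap_apply_of_ne_of_ne h1 h2, if_neg h1, if_neg h2, one_mul]
        by_cases h3 : d ∈ A
        · have h4 : A.formPerm d ∉ B := fun h => hdis _ (List.formPerm_apply_mem_of_mem h3) h
          rw [if_pos h3, if_pos (Or.inl h3), if_neg h4, mul_one]
        · rw [if_neg h3, List.formPerm_apply_of_notMem h3, one_mul]
          by_cases h4 : d ∈ B
          · rw [if_pos h4, if_pos (Or.inr h4)]
          · rw [if_neg h4, if_neg (by tauto)]

/-- Labelled transpositions. -/
def IsSw (R : Mn D H) : Prop := ∃ a b t, a ≠ b ∧ R = sw a b t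

/-- `x` is obtained from `y` by `k` labelled transpositions (on the left). -/
def Chain (x y : Mn D H) (k : ℕ) : Prop :=
  ∃ Rs : List (Mn D H), Rs.length = k ∧ (∀ R ∈ Rs, IsSw R) ∧ x = Rs.prod * y

theorem Chain.refl (x : Mn D H) : Chain x x 0 := ⟨[], rfl, by simp, by simp⟩

theorem Chain.trans {x y z : Mn D H} {k l : ℕ} (h1 : Chain x y k) (h2 : Chain y z l) :
    Chain x z (k + l) := by
  obtain ⟨R, a, b, e⟩ := h1
  obtain ⟨S, a', b', e'⟩ := h2
  refine ⟨R ++ S, by simp [a, a'], ?_, ?_⟩
  · intro r hr
    rcases List.mem_append.1 hr with h | h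
    · exact b r h
    · exact b' r h
  · rw [List.prod_append, mul_assoc, ← e', ← e]

theorem Chain.mul_right {x y : Mn D H} {k : ℕ} (h : Chain x y k) (z : Mn D H) :
    Chain (x * z) (y * z) k := by
  obtain ⟨R, a, b, e⟩ := h
  exact ⟨R, a, b, by rw [e, mul_assoc]⟩

theorem IsSw.conj {R : Mn D H} (h : IsSw R) (u : Mn D H) : IsSw (u * R * u⁻¹) := by
  obtain ⟨a, b, t, hab, rfl⟩ := h
  have hab' : u.σ.symm a ≠ u.σ.symm b := fun h => hab (u.σ.symm.injective h)
  refine ⟨u.σ.symm a, u.σ.symm b, u.c (u.σ.symm a) * t * (u.c (u.σ.symm b))⁻¹, hab', ?_⟩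
  refine ext' (fun d => ?_) (fun d => ?_)
  · simp only [mul_σ, sw_σ, inv_σ]
    by_cases h1 : d = u.σ.symm a
    · subst h1
      rw [Equiv.apply_symm_apply, swap_apply_left, swap_apply_left]
    · by_cases h2 : d = u.σ.symm b
      · subst h2
        rw [Equiv.apply_symm_apply, swap_apply_right, swap_apply_right]
      · rw [swap_apply_of_ne_of_ne h1 h2, swap_apply_of_ne_of_ne, Equiv.symm_apply_apply]
        · intro h; exact h1 (by rw [← h, Equiv.symm_apply_apply])
        · intro h; exact h2 (by rw [← h, Equiv.symm_apply_apply])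
  · simp only [mul_σ, mul_c, sw_σ, sw_c, inv_c]
    by_cases h1 : d = u.σ.symm a
    · subst h1
      rw [Equiv.apply_symm_apply, swap_apply_left, if_pos rfl, if_pos rfl]
    · by_cases h2 : d = u.σ.symm b
      · subst h2
        rw [Equiv.apply_symm_apply, swap_apply_right, if_neg (Ne.symm hab), if_pos rfl,
          if_neg (Ne.symm hab'), if_pos rfl]
        group
      · have h3 : u.σ d ≠ a := fun h => h1 (by rw [← h, Equiv.symm_apply_apply])
        have h4 : u.σ d ≠ b := fun h => h2 (by rw [← h, Equiv.symm_apply_apply])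
        rw [swap_apply_of_ne_of_ne h3 h4, if_neg h3, if_neg h4, if_neg h1, if_neg h2,
          Equiv.symm_apply_apply]
        group

theorem Chain.mul_left {x y : Mn D H} {k : ℕ} (h : Chain x y k) (u : Mn D H) :
    Chain (u * x) (u * y) k := by
  obtain ⟨R, a, b, e⟩ := h
  refine ⟨R.map fun r => u * r * u⁻¹, by simp [a], ?_, ?_⟩
  · intro r hr
    obtain ⟨r', h1, rfl⟩ := List.mem_map.1 hr
    exact (b r' h1).conj u
  · have : (R.map fun r => u * r * u⁻¹).prod = u * R.prod * u⁻¹ := by
      clear a b e
      induction R with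
      | nil => simp
      | cons r R ih => simp only [List.map_cons, List.prod_cons, ih]; group
    rw [this, e]; group

end Vale.Agent.P174.H834
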