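import Vale.Agent.P174.H834.Mn

set_option linter.all false

/-!
# Normal forms in a free product `G * F`
-/

namespace Vale.Agent.P174.H834

open Monoid.Coprod

/-- Letters: unknowns and their inverses. -/
abbrev Let (n : ℕ) := Fin n × Bool

variable {n : ℕ} {G : Type*} [Group G]

/-- Inverse letter. -/
def nv (y : Let n) : Let n := (y.1, !y.2)

theorem nv_nv (y : Let n) : nv (nv y) = y := by simp [nv]

theorem nv_ne (y : Let n) : nv y ≠ y := by
  intro h
  have := congrArg Prod.snd h
  simp [nv] at this

/-- Value of a letter. -/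
def lv (G : Type*) [Group G] (y : Let n) : Monoid.Coprod G (FreeGroup (Fin n)) :=
  if y.2 then inr (FreeGroup.of y.1) else (inr (FreeGroup.of y.1))⁻¹

theorem lv_nv (y : Let n) : lv G (nv y) = (lv G y)⁻¹ := by
  rcases y with ⟨j, b⟩
  cases b <;> simp [lv, nv]

/-- Value of a word. -/
def wv (L : List (Let n × G)) : Monoid.Coprod G (FreeGroup (Fin n)) :=
  (L.map fun p => lv G p.1 * inl p.2).prod

/-- Reduced words. -/
def Red (L : List (Let n × G)) : Prop :=
  L.IsChain fun p q => ¬ (p.2 = 1 ∧ q.1 = nv p.1)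

/-- States of the action. -/
abbrev RS (n : ℕ) (G : Type*) [Group G] := G × {L : List (Let n × G) // Red L}

open Classical in
/-- Action of a letter. -/
noncomputable def act (y : Let n) (s : RS n G) : RS n G :=
  if h : s.1 = 1 ∧ ∃ d L, s.2.1 = (nv y, d) :: L then
    (h.2.choose, ⟨h.2.choose_spec.choose, by
      have h1 := s.2.2
      rw [h.2.choose_spec.choose_spec] at h1
      exact h1.tail⟩)
  else (1, ⟨(y, s.1) :: s.2.1, by
    have h1 := s.2.2
    unfold Red at h1 ⊢
    rcases hL : s.2.1 with _ | ⟨q, L⟩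
    · exact List.isChain_singleton _
    · rw [hL] at h1
      rw [List.isChain_cons_cons]
      refine ⟨fun h2 => h ⟨h2.1, q.2, L, ?_⟩, h1⟩
      rw [hL]
      have : q.1 = nv y := h2.2
      rw [← this]⟩)

theorem act_pos (y : Let n) {s : RS n G} {d : G} {L : List (Let n × G)} (h1 : s.1 = 1)
    (h2 : s.2.1 = (nv y, d) :: L) : (act y s).1 = d ∧ (act y s).2.1 = L := by
  have h : s.1 = 1 ∧ ∃ d L, s.2.1 = (nv y, d) :: L := ⟨h1, d, L, h2⟩
  have h3 : (nv y, d) :: L = (nv y, h.2.choose) :: h.2.choose_spec.choose :=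
    h2.symm.trans h.2.choose_spec.choose_spec
  simp only [List.cons.injEq, Prod.mk.injEq, true_and] at h3
  unfold act
  rw [dif_pos h]
  exact ⟨h3.1.symm, h3.2.symm⟩

theorem act_neg (y : Let n) {s : RS n G} (h : ¬ (s.1 = 1 ∧ ∃ d L, s.2.1 = (nv y, d) :: L)) :
    (act y s).1 = 1 ∧ (act y s).2.1 = (y, s.1) :: s.2.1 := by
  unfold act
  rw [dif_neg h]
  exact ⟨rfl, rfl⟩

theorem act_act (y : Let n) (s : RS n G) : act (nv y) (act y s) = s := by
  by_cases h : s.1 = 1 ∧ ∃ d L, s.2.1 = (nv y, d) :: L
  · obtain ⟨h1, d, L, h2⟩ := h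
    obtain ⟨h3, h4⟩ := act_pos y h1 h2
    have hn : ¬ ((act y s).1 = 1 ∧ ∃ d' L', (act y s).2.1 = (nv (nv y), d') :: L') := by
      rintro ⟨e1, d', L', e2⟩
      have hr := s.2.2
      rw [h2] at hr
      rw [h4] at e2
      rw [e2] at hr
      unfold Red at hr
      rw [List.isChain_cons_cons] at hr
      exact hr.1 ⟨by rw [← h3]; exact e1, rfl⟩
    obtain ⟨h5, h6⟩ := act_neg (nv y) hn
    refine Prod.ext (h5.trans h1.symm) (Subtype.ext ?_)
    rw [h6, h3, h4, h2]
  · obtain ⟨h3, h4⟩ := act_neg y h
    obtain ⟨h5, h6⟩ := act_pos (nv y) (s := act y s) (d := s.1) (L := s.2.1) h3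
      (by rw [h4, nv_nv])
    exact Prod.ext h5 (Subtype.ext h6)

/-- The permutation of the states given by a letter. -/
noncomputable def actP (y : Let n) : Equiv.Perm (RS n G) where
  toFun := act y
  invFun := act (nv y)
  left_inv s := act_act y s
  right_inv s := by
    have := act_act (nv y) s
    rwa [nv_nv] at this

/-- Action of the coefficients. -/
def actG : G →* Equiv.Perm (RS n G) where
  toFun g := { toFun := fun s => (g * s.1, s.2), invFun := fun s => (g⁻¹ * s.1, s.2)
               left_inv := fun s => by simp, right_inv := fun s => by simp }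
  map_one' := by ext s <;> simp
  map_mul' g h := by
    apply Equiv.ext
    intro s
    simp [mul_assoc]

/-- The action of the free product. -/
noncomputable def actW : Monoid.Coprod G (FreeGroup (Fin n)) →* Equiv.Perm (RS n G) :=
  Monoid.Coprod.lift actG (FreeGroup.lift fun j => actP (j, true))

theorem actW_inl (g : G) (s : RS n G) : actW (inl g) s = (g * s.1, s.2) := by
  unfold actW
  rw [Monoid.Coprod.lift_apply_inl]
  rfl

theorem actW_lv (y : Let n) (s : RS n G) : actW (lv G y) s = act y s := by
  rcases y with ⟨j, b⟩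
  cases b
  · have h : actW (lv G (j, false)) = (actP (G := G) (j, true))⁻¹ := by
      simp only [lv, Bool.false_eq_true, if_false, map_inv]
      unfold actW
      rw [Monoid.Coprod.lift_apply_inr, FreeGroup.lift_apply_of]
    rw [h]
    rfl
  · have h : actW (lv G (j, true)) = (actP (G := G) (j, true)) := by
      simp only [lv, if_true]
      unfold actW
      rw [Monoid.Coprod.lift_apply_inr, FreeGroup.lift_apply_of]
    rw [h]
    rfl

theorem actW_wv {L : List (Let n × G)} (h : Red L) :
    actW (wv L) (1, ⟨[], List.isChain_nil⟩) = (1, ⟨L, h⟩) := by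
  induction L with
  | nil => simp [wv]
  | cons p L ih =>
    have hL : Red L := h.tail
    have e : wv (p :: L) = lv G p.1 * (inl p.2 * wv L) := by
      simp [wv, mul_assoc]
    rw [e, map_mul, map_mul, Equiv.Perm.mul_apply, Equiv.Perm.mul_apply, ih hL, actW_inl,
      actW_lv, mul_one]
    have hn : ¬ (((p.2, ⟨L, hL⟩) : RS n G).1 = 1 ∧
        ∃ d L', ((p.2, ⟨L, hL⟩) : RS n G).2.1 = (nv p.1, d) :: L') := by
      rintro ⟨e1, d, L', e2⟩
      have e2' : L = (nv p.1, d) :: L' := e2
      unfold Red at h
      rw [e2', List.isChain_cons_cons] at h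
      exact h.1 ⟨e1, rfl⟩
    obtain ⟨h5, h6⟩ := act_neg p.1 hn
    exact Prod.ext h5 (Subtype.ext h6)

theorem red_or (L : List (Let n × G)) :
    Red L ∨ ∃ X Y y d, L = X ++ (y, 1) :: (nv y, d) :: Y := by
  induction L with
  | nil => exact Or.inl List.isChain_nil
  | cons p L ih =>
    rcases ih with ih | ⟨X, Y, y, d, e⟩
    · cases L with
      | nil => exact Or.inl (List.isChain_singleton _)
      | cons q L' =>
        by_cases hc : p.2 = 1 ∧ q.1 = nv p.1
        · right
          refine ⟨[], L', p.1, q.2, ?_⟩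
          rcases p with ⟨y, c⟩
          rcases q with ⟨z, d⟩
          simp only at hc
          rw [hc.1, hc.2]; rfl
        · left
          unfold Red at ih ⊢
          rw [List.isChain_cons_cons]
          exact ⟨hc, ih⟩
    · right
      exact ⟨p :: X, Y, y, d, by rw [e]; rfl⟩

/-- **Normal form lemma**: a nonempty word whose value (up to a coefficient) is a coefficient
contains a letter followed, without coefficient, by its inverse. -/
theorem exists_cancel {L : List (Let n × G)} (hL : L ≠ []) {a g : G}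
    (h : inl a * wv L = inl g) : ∃ X Y y d, L = X ++ (y, 1) :: (nv y, d) :: Y := by
  rcases red_or L with hr | hr
  · exfalso
    have h1 : wv L = inl (a⁻¹ * g) := by
      rw [map_mul, map_inv, ← h]; group
    have h2 := actW_wv hr
    rw [h1, actW_inl] at h2
    have h3 := congrArg (fun s : RS n G => s.2.1) h2
    exact hL h3.symm
  · exact hr

end Vale.Agent.P174.H834
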