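import Vale.Agent.P174.H834.Reduce

set_option linter.all false

/-!
# The darts and the long word
-/

namespace Vale.Agent.P174.H834

open Equiv Mn

/-- Data of the long word: cyclic relators `y i k, c i k` (`k < ℓ i`), conjugators as lists of
tokens, and the order of the factors. The factors are indexed by the number of the relator, its
sign and the number of the copy. -/
structure WD (m n N : ℕ) (G : Type*) where
  ℓ : Fin m → ℕ
  hℓ : ∀ i, 0 < ℓ i
  y : Fin m → ℕ → Let n
  c : Fin m → ℕ → G
  len : Fin m × Bool × Fin N → ℕ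
  tok : (Σ s : Fin m × Bool × Fin N, Fin (len s)) → Let n ⊕ G
  Sl : List (Fin m × Bool × Fin N)
  nodup : Sl.Nodup
  mem : ∀ s, s ∈ Sl

namespace WD

variable {m n N : ℕ} {G : Type*}

/-- Letters of the relators. -/
abbrev R (W : WD m n N G) := Σ i : Fin m, Fin (W.ℓ i)

/-- Tokens of the conjugators. -/
abbrev T (W : WD m n N G) := Σ s : Fin m × Bool × Fin N, Fin (W.len s)

/-- Letters of the conjugators. -/
abbrev B (W : WD m n N G) := {t : W.T // (W.tok t).isLeft = true}

/-- Coefficients of the conjugators. -/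
abbrev Q (W : WD m n N G) := {t : W.T // ¬ (W.tok t).isLeft = true}

/-- Darts without letter. -/
abbrev M (W : WD m n N G) := (W.Q × Bool) ⊕ Unit

/-- Darts. -/
abbrev D (W : WD m n N G) := (W.R × Bool × Fin N) ⊕ ((W.B × Bool) ⊕ W.M)

instance (W : WD m n N G) : DecidableEq W.R := fun a b => inferInstance

instance (W : WD m n N G) : DecidableEq W.T := fun a b => inferInstance

instance (W : WD m n N G) : DecidableEq W.B := fun a b => inferInstance

instance (W : WD m n N G) : DecidableEq W.Q := fun a b => inferInstance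

instance (W : WD m n N G) : DecidableEq W.D := fun a b => inferInstance

instance (W : WD m n N G) : Fintype W.D := inferInstance

/-- The base marker. -/
def m0 (W : WD m n N G) : W.D := Sum.inr (Sum.inr (Sum.inr ()))

/-- Cyclic successor. -/
def nx (W : WD m n N G) (i : Fin m) (k : ℕ) : ℕ := (k + 1) % W.ℓ i

/-- Cyclic predecessor. -/
def pv (W : WD m n N G) (i : Fin m) (k : ℕ) : ℕ := (k + W.ℓ i - 1) % W.ℓ i

theorem nx_lt (W : WD m n N G) (i : Fin m) (k : ℕ) : W.nx i k < W.ℓ i := Nat.mod_lt _ (W.hℓ i)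

theorem pv_lt (W : WD m n N G) (i : Fin m) (k : ℕ) : W.pv i k < W.ℓ i := Nat.mod_lt _ (W.hℓ i)

/-- The letter of a conjugator token. -/
def bl (W : WD m n N G) (t : W.B) : Let n := (W.tok t.1).getLeft t.2

/-- The coefficient of a conjugator token. -/
def ql (W : WD m n N G) (t : W.Q) : G := (W.tok t.1).getRight (by
  have := t.2; rwa [Sum.not_isLeft] at this)

/-- The letters of the darts. -/
def lam (W : WD m n N G) : W.D → Option (Let n)
  | Sum.inl (r, b, _) => some (if b then W.y r.1 r.2 else nv (W.y r.1 r.2))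
  | Sum.inr (Sum.inl (t, b)) => some (if b then W.bl t else nv (W.bl t))
  | Sum.inr (Sum.inr _) => none

variable [Group G]

/-- The coefficients following the darts. -/
def cc (W : WD m n N G) : W.D → G
  | Sum.inl (r, b, _) => if b then W.c r.1 r.2 else (W.c r.1 (W.pv r.1 r.2))⁻¹
  | Sum.inr (Sum.inl _) => 1
  | Sum.inr (Sum.inr (Sum.inl (t, b))) => if b then W.ql t else (W.ql t)⁻¹
  | Sum.inr (Sum.inr (Sum.inr _)) => 1

/-- The labels. -/
def cH (W : WD m n N G) (d : W.D) : HH G := (W.cc d, 1)

/-- Darts of the conjugators. -/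
def p (W : WD m n N G) (t : W.T) : W.D :=
  if h : (W.tok t).isLeft = true then Sum.inr (Sum.inl (⟨t, h⟩, true))
  else Sum.inr (Sum.inr (Sum.inl (⟨t, h⟩, true)))

/-- Darts of the inverse conjugators. -/
def q (W : WD m n N G) (t : W.T) : W.D :=
  if h : (W.tok t).isLeft = true then Sum.inr (Sum.inl (⟨t, h⟩, false))
  else Sum.inr (Sum.inr (Sum.inl (⟨t, h⟩, false)))

/-- Tokens of a conjugator. -/
def Tl (W : WD m n N G) (s : Fin m × Bool × Fin N) : List W.T :=
  (List.finRange (W.len s)).map fun j => ⟨s, j⟩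

/-- Darts of a relator. -/
def rel (W : WD m n N G) (s : Fin m × Bool × Fin N) : List W.D :=
  if s.2.1 then (List.finRange (W.ℓ s.1)).map fun k => Sum.inl (⟨s.1, k⟩, true, s.2.2)
  else (List.finRange (W.ℓ s.1)).reverse.map fun k => Sum.inl (⟨s.1, k⟩, false, s.2.2)

/-- The block of a factor. -/
def blk (W : WD m n N G) (s : Fin m × Bool × Fin N) : List W.D :=
  (W.Tl s).map W.p ++ W.rel s ++ (W.Tl s).reverse.map W.q

/-- The long word without the base marker. -/
def L (W : WD m n N G) : List W.D := W.Sl.flatMap W.blk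

theorem p_inj (W : WD m n N G) {t t' : W.T} (h : W.p t = W.p t') : t = t' := by
  unfold p at h
  split_ifs at h <;> simpa using h

theorem q_inj (W : WD m n N G) {t t' : W.T} (h : W.q t = W.q t') : t = t' := by
  unfold q at h
  split_ifs at h <;> simpa using h

theorem p_ne_q (W : WD m n N G) (t t' : W.T) : W.p t ≠ W.q t' := by
  intro h
  unfold p q at h
  split_ifs at h <;> simp at h

/-- The factor to which a dart belongs. -/
def own (W : WD m n N G) : W.D → Option (Fin m × Bool × Fin N)
  | Sum.inl (r, b, k) => some (r.1, b, k)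
  | Sum.inr (Sum.inl (t, _)) => some t.1.1
  | Sum.inr (Sum.inr (Sum.inl (t, _))) => some t.1.1
  | Sum.inr (Sum.inr (Sum.inr _)) => none

theorem own_p (W : WD m n N G) (t : W.T) : W.own (W.p t) = some t.1 := by
  unfold p; split_ifs <;> rfl

theorem own_q (W : WD m n N G) (t : W.T) : W.own (W.q t) = some t.1 := by
  unfold q; split_ifs <;> rfl

theorem own_blk (W : WD m n N G) {s : Fin m × Bool × Fin N} {d : W.D} (h : d ∈ W.blk s) :
    W.own d = some s := by
  obtain ⟨i, b, k⟩ := s
  simp only [blk, Tl, rel, List.mem_append, List.mem_map, List.mem_reverse] at h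
  rcases h with (⟨t, ⟨j, _, rfl⟩, rfl⟩ | h) | ⟨t, ⟨j, _, rfl⟩, rfl⟩
  · rw [own_p]
  · cases b
    · simp only [Bool.false_eq_true, if_false, List.mem_map, List.mem_reverse] at h
      obtain ⟨j, _, rfl⟩ := h
      rfl
    · simp only [if_true, List.mem_map] at h
      obtain ⟨j, _, rfl⟩ := h
      rfl
  · rw [own_q]

theorem nodup_Tl (W : WD m n N G) (s : Fin m × Bool × Fin N) : (W.Tl s).Nodup := by
  refine (List.nodup_finRange _).map ?_
  intro a b h
  simpa using h

theorem nodup_rel (W : WD m n N G) (s : Fin m × Bool × Fin N) : (W.rel s).Nodup := by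
  unfold rel
  split_ifs
  · refine (List.nodup_finRange _).map ?_
    intro a b h
    simpa using h
  · refine (List.nodup_reverse.2 (List.nodup_finRange _)).map ?_
    intro a b h
    simpa using h

theorem mem_rel (W : WD m n N G) {s : Fin m × Bool × Fin N} {d : W.D} :
    d ∈ W.rel s ↔ ∃ k, d = Sum.inl (⟨s.1, k⟩, s.2.1, s.2.2) := by
  obtain ⟨i, b, k⟩ := s
  cases b
  · simp only [rel, Bool.false_eq_true, if_false, List.mem_map, List.mem_reverse,
      List.mem_finRange, true_and, eq_comm]
  · simp only [rel, if_true, List.mem_map, List.mem_finRange, true_and, eq_comm]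

theorem mem_Tl (W : WD m n N G) {s : Fin m × Bool × Fin N} {t : W.T} :
    t ∈ W.Tl s ↔ t.1 = s := by
  constructor
  · intro h
    obtain ⟨j, _, rfl⟩ := List.mem_map.1 h
    rfl
  · rintro rfl
    exact List.mem_map.2 ⟨t.2, List.mem_finRange _, rfl⟩

theorem nodup_blk (W : WD m n N G) (s : Fin m × Bool × Fin N) : (W.blk s).Nodup := by
  unfold blk
  rw [List.nodup_append, List.nodup_append]
  refine ⟨⟨(W.nodup_Tl s).map fun a b h => W.p_inj h, W.nodup_rel s, ?_⟩,
    (List.nodup_reverse.2 (W.nodup_Tl s)).map fun a b h => W.q_inj h, ?_⟩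
  · intro a ha b hb hab
    subst hab
    obtain ⟨t, _, rfl⟩ := List.mem_map.1 ha
    obtain ⟨k, hk⟩ := W.mem_rel.1 hb
    unfold p at hk
    split_ifs at hk
  · intro a ha b hb hab
    subst hab
    obtain ⟨t', _, rfl⟩ := List.mem_map.1 hb
    rcases List.mem_append.1 ha with ha | ha
    · obtain ⟨t, _, h⟩ := List.mem_map.1 ha
      exact W.p_ne_q _ _ h
    · obtain ⟨k, hk⟩ := W.mem_rel.1 ha
      unfold q at hk
      split_ifs at hk

theorem nodup_L (W : WD m n N G) : (W.m0 :: W.L).Nodup := by
  rw [List.nodup_cons]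
  constructor
  · intro h
    obtain ⟨s, _, hs⟩ := List.mem_flatMap.1 h
    have := W.own_blk hs
    simp [m0, own] at this
  · unfold L
    rw [List.nodup_flatMap]
    refine ⟨fun s _ => W.nodup_blk s, ?_⟩
    refine W.nodup.imp ?_
    intro s s' hss d hd hd'
    have h1 := W.own_blk hd
    have h2 := W.own_blk hd'
    rw [h1] at h2
    exact hss (Option.some_injective _ h2)

theorem mem_all (W : WD m n N G) (d : W.D) : d ∈ W.m0 :: W.L := by
  rw [List.mem_cons]
  rcases d with ⟨⟨i, k⟩, b, x⟩ | ⟨t, b⟩ | ⟨t, b⟩ | u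
  · right
    refine List.mem_flatMap.2 ⟨(i, b, x), W.mem _, ?_⟩
    unfold blk
    rw [List.mem_append, List.mem_append]
    exact Or.inl (Or.inr (W.mem_rel.2 ⟨k, rfl⟩))
  · right
    refine List.mem_flatMap.2 ⟨t.1.1, W.mem _, ?_⟩
    unfold blk
    rw [List.mem_append, List.mem_append]
    cases b
    · right
      refine List.mem_map.2 ⟨t.1, List.mem_reverse.2 (W.mem_Tl.2 rfl), ?_⟩
      unfold q
      rw [dif_pos t.2]
    · left; left
      refine List.mem_map.2 ⟨t.1, W.mem_Tl.2 rfl, ?_⟩
      unfold p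
      rw [dif_pos t.2]
  · right
    refine List.mem_flatMap.2 ⟨t.1.1, W.mem _, ?_⟩
    unfold blk
    rw [List.mem_append, List.mem_append]
    cases b
    · right
      refine List.mem_map.2 ⟨t.1, List.mem_reverse.2 (W.mem_Tl.2 rfl), ?_⟩
      unfold q
      rw [dif_neg t.2]
    · left; left
      refine List.mem_map.2 ⟨t.1, W.mem_Tl.2 rfl, ?_⟩
      unfold p
      rw [dif_neg t.2]
  · left; rfl

/-! ## The value of the long word -/

/-- Value of a token. -/
def tv : Let n ⊕ G → Monoid.Coprod G (FreeGroup (Fin n))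
  | Sum.inl y => lv G y
  | Sum.inr g => Monoid.Coprod.inl g

/-- Value of a conjugator. -/
def uv (W : WD m n N G) (s : Fin m × Bool × Fin N) : Monoid.Coprod G (FreeGroup (Fin n)) :=
  ((W.Tl s).map fun t => tv (W.tok t)).prod

/-- Value of the first `j` letters of a relator. -/
def rv (W : WD m n N G) (i : Fin m) (j : ℕ) : Monoid.Coprod G (FreeGroup (Fin n)) :=
  ((List.range j).map fun k => lv G (W.y i k) * Monoid.Coprod.inl (W.c i k)).prod

/-- Value of the block of a relator. -/
def sv (W : WD m n N G) (s : Fin m × Bool × Fin N) : Monoid.Coprod G (FreeGroup (Fin n)) :=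
  if s.2.1 then W.rv s.1 (W.ℓ s.1)
  else Monoid.Coprod.inl (W.c s.1 (W.ℓ s.1 - 1)) * (W.rv s.1 (W.ℓ s.1))⁻¹ *
    (Monoid.Coprod.inl (W.c s.1 (W.ℓ s.1 - 1)))⁻¹

theorem lv_getLeft (x : Let n ⊕ G) (h : x.isLeft = true) : lv G (x.getLeft h) = tv x := by
  cases x with
  | inl y => rfl
  | inr g => simp at h

theorem inl_getRight (x : Let n ⊕ G) (h : x.isRight = true) :
    Monoid.Coprod.inl (x.getRight h) = tv x := by
  cases x with
  | inl y => simp at h
  | inr g => rfl

theorem val_p (W : WD m n N G) (t : W.T) :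
    lo G (W.lam (W.p t)) * Monoid.Coprod.inl (W.cH (W.p t)).1 = tv (W.tok t) := by
  unfold p
  split_ifs with h
  · simp only [lam, if_true, cH, cc, lo, map_one, mul_one, bl, lv_getLeft]
  · simp only [lam, cH, cc, lo, if_true, one_mul, ql, inl_getRight]

theorem val_q (W : WD m n N G) (t : W.T) :
    lo G (W.lam (W.q t)) * Monoid.Coprod.inl (W.cH (W.q t)).1 = (tv (W.tok t))⁻¹ := by
  unfold q
  split_ifs with h
  · simp only [lam, Bool.false_eq_true, if_false, cH, cc, lo, map_one, mul_one, bl, lv_nv,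
      lv_getLeft]
  · simp only [lam, cH, cc, lo, Bool.false_eq_true, if_false, one_mul, ql, map_inv,
      inl_getRight]

theorem rv_succ (W : WD m n N G) (i : Fin m) (j : ℕ) :
    W.rv i (j + 1) = W.rv i j * (lv G (W.y i j) * Monoid.Coprod.inl (W.c i j)) := by
  simp [rv, List.range_succ]

/-- The negative word of the first `j` letters. -/
theorem neg_prod (W : WD m n N G) (i : Fin m) : ∀ j, j ≤ W.ℓ i →
    ((List.range j).reverse.map fun k => lv G (nv (W.y i k)) *
      Monoid.Coprod.inl (W.c i (W.pv i k))⁻¹).prod =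
    Monoid.Coprod.inl (W.c i (W.pv i j)) * (W.rv i j)⁻¹ *
      (Monoid.Coprod.inl (W.c i (W.ℓ i - 1)))⁻¹ := by
  intro j
  have hpos := W.hℓ i
  have h0 : W.pv i 0 = W.ℓ i - 1 := by
    unfold pv
    rw [Nat.mod_eq_of_lt] <;> omega
  induction j with
  | zero =>
    intro _
    simp [rv, h0]
  | succ j ih =>
    intro hj
    have h1 : W.pv i (j + 1) = j := by
      unfold pv
      have : j + 1 + W.ℓ i - 1 = j + W.ℓ i := by omega
      rw [this, Nat.add_mod_right, Nat.mod_eq_of_lt (by omega)]
    rw [List.range_succ, List.reverse_append, List.reverse_singleton, List.singleton_append,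
      List.map_cons, List.prod_cons, ih (by omega), rv_succ, h1, lv_nv]
    simp only [map_inv]
    group

theorem range_eq (k : ℕ) : (List.finRange k).map (fun x : Fin k => (x : ℕ)) = List.range k := by
  simp

theorem val_rel (W : WD m n N G) (s : Fin m × Bool × Fin N) :
    ev W.lam W.cH (W.rel s) = W.sv s := by
  obtain ⟨i, b, x⟩ := s
  have hpos := W.hℓ i
  cases b
  · have h1 := W.neg_prod i (W.ℓ i) le_rfl
    have h2 : W.pv i (W.ℓ i) = W.ℓ i - 1 := by
      unfold pv
      have : W.ℓ i + W.ℓ i - 1 = (W.ℓ i - 1) + W.ℓ i := by omega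
      rw [this, Nat.add_mod_right, Nat.mod_eq_of_lt (by omega)]
    rw [h2] at h1
    simp only [sv, Bool.false_eq_true, if_false]
    rw [← h1, ← range_eq, ← List.map_reverse, List.map_map]
    simp only [ev, rel, Bool.false_eq_true, if_false, List.map_map]
    congr 1
  · simp only [sv, if_true]
    rw [rv, ← range_eq, List.map_map]
    simp only [ev, rel, if_true, List.map_map]
    congr 1

theorem val_blk (W : WD m n N G) (s : Fin m × Bool × Fin N) :
    ev W.lam W.cH (W.blk s) = W.uv s * W.sv s * (W.uv s)⁻¹ := by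
  unfold blk
  rw [ev_append, ev_append, val_rel]
  congr 1
  · congr 1
    unfold ev uv
    rw [List.map_map]
    congr 1
    apply List.map_congr_left
    intro t _
    exact W.val_p t
  · unfold ev uv
    rw [List.map_map, List.prod_inv_reverse, List.map_map, List.map_reverse]
    congr 2
    apply List.map_congr_left
    intro t _
    exact W.val_q t

/-- **The value of the long word.** -/
theorem val_L (W : WD m n N G) :
    ev W.lam W.cH (W.m0 :: W.L) = (W.Sl.map fun s => W.uv s * W.sv s * (W.uv s)⁻¹).prod := by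
  rw [ev_cons]
  have h1 : lo G (W.lam W.m0) * Monoid.Coprod.inl (W.cH W.m0).1 = 1 := by
    simp [m0, lam, cH, cc, lo]
  rw [h1, one_mul]
  unfold L
  induction W.Sl with
  | nil => simp [ev]
  | cons s l ih => rw [List.flatMap_cons, ev_append, ih, val_blk]; simp

end WD

end Vale.Agent.P174.H834
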